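import Vale.Agent.P073.Defs

/-! Mollification by a product kernel which is invariant under the coordinate reflections. -/

open MeasureTheory Set Filter
open scoped ContDiff Topology ENNReal

namespace Vale.Agent.P073

variable {n : ℕ}

/-- Unnormalised product bump of width `δ`. -/
noncomputable def kerFun (δ : ℝ) (y : Fin n → ℝ) : ℝ :=
  ∏ l, Real.smoothTransition (1 - (y l / δ) ^ 2)

/-- Normalised product bump. -/
noncomputable def ker (δ : ℝ) (y : Fin n → ℝ) : ℝ :=
  (∫ z : Fin n → ℝ, kerFun δ z)⁻¹ * kerFun δ y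

/-- Mollification. -/
noncomputable def moll (δ : ℝ) (g : (Fin n → ℝ) → ℝ) (x : Fin n → ℝ) : ℝ :=
  ∫ y, ker δ y * g (x - y)

lemma kerFun_contDiff (δ : ℝ) : ContDiff ℝ ∞ (kerFun (n := n) δ) := by
  refine contDiff_prod fun l _ => Real.smoothTransition.contDiff.comp ?_
  exact contDiff_const.sub (((contDiff_apply ℝ ℝ l).div_const δ).pow 2)

lemma ker_contDiff (δ : ℝ) : ContDiff ℝ ∞ (ker (n := n) δ) :=
  contDiff_const.mul (kerFun_contDiff δ)

lemma ker_continuous (δ : ℝ) : Continuous (ker (n := n) δ) := (ker_contDiff δ).continuous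

lemma kerFun_eq_zero {δ : ℝ} (hδ : 0 < δ) {y : Fin n → ℝ} {l : Fin n} (h : δ ≤ |y l|) :
    kerFun δ y = 0 := by
  refine Finset.prod_eq_zero (Finset.mem_univ l) (Real.smoothTransition.zero_of_nonpos ?_)
  have h1 : 1 ≤ |y l / δ| := by rwa [abs_div, abs_of_pos hδ, le_div_iff₀ hδ, one_mul]
  nlinarith [sq_abs (y l / δ)]

lemma kerFun_hasCompactSupport {δ : ℝ} (hδ : 0 < δ) : HasCompactSupport (kerFun (n := n) δ) := by
  refine HasCompactSupport.intro
    (isCompact_univ_pi (s := fun _ : Fin n => Set.Icc (-δ) δ) fun _ => isCompact_Icc)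
    fun y hy => ?_
  simp only [Set.mem_univ_pi, not_forall, Set.mem_Icc, ← abs_le] at hy
  obtain ⟨l, hl⟩ := hy
  exact kerFun_eq_zero hδ (not_le.1 hl).le

lemma ker_hasCompactSupport {δ : ℝ} (hδ : 0 < δ) : HasCompactSupport (ker (n := n) δ) :=
  (kerFun_hasCompactSupport hδ).mul_left

lemma kerFun_nonneg (δ : ℝ) (y : Fin n → ℝ) : 0 ≤ kerFun δ y :=
  Finset.prod_nonneg fun _ _ => Real.smoothTransition.nonneg _

lemma kerFun_integral_pos {δ : ℝ} (hδ : 0 < δ) : 0 < ∫ y : Fin n → ℝ, kerFun δ y := by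
  refine (kerFun_contDiff δ).continuous.integral_pos_of_hasCompactSupport_nonneg_nonzero
    (kerFun_hasCompactSupport hδ) (kerFun_nonneg δ) (x := 0) ?_
  simp [kerFun, Real.smoothTransition.one_of_one_le le_rfl]

lemma ker_nonneg (δ : ℝ) (y : Fin n → ℝ) : 0 ≤ ker δ y :=
  mul_nonneg (inv_nonneg.2 (integral_nonneg (kerFun_nonneg δ))) (kerFun_nonneg δ y)

lemma ker_integrable {δ : ℝ} (hδ : 0 < δ) : Integrable (ker (n := n) δ) :=
  (ker_continuous δ).integrable_of_hasCompactSupport (ker_hasCompactSupport hδ)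

lemma ker_integral {δ : ℝ} (hδ : 0 < δ) : ∫ y : Fin n → ℝ, ker δ y = 1 := by
  simp only [ker, integral_const_mul]
  exact inv_mul_cancel₀ (kerFun_integral_pos hδ).ne'

lemma ker_flip (δ : ℝ) (i : Fin n) (y : Fin n → ℝ) :
    ker δ (Function.update y i (-y i)) = ker δ y := by
  simp only [ker, kerFun]
  congr 1
  refine Finset.prod_congr rfl fun l _ => ?_
  rcases eq_or_ne l i with h | h
  · subst h; simp [neg_div]
  · simp [h]

lemma ker_eq_zero {δ : ℝ} (hδ : 0 < δ) {y : Fin n → ℝ} {l : Fin n} (h : δ ≤ |y l|) :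
    ker δ y = 0 := by
  simp [ker, kerFun_eq_zero hδ h]

/-- The probability measure with density `ker δ`. -/
noncomputable def kerMeasure (δ : ℝ) : Measure (Fin n → ℝ) :=
  volume.withDensity fun y => ENNReal.ofReal (ker δ y)

lemma kerMeasure_prob {δ : ℝ} (hδ : 0 < δ) : IsProbabilityMeasure (kerMeasure (n := n) δ) := by
  refine ⟨?_⟩
  rw [kerMeasure, withDensity_apply _ MeasurableSet.univ, setLIntegral_univ,
    ← ofReal_integral_eq_lintegral_ofReal (ker_integrable hδ)
      (Eventually.of_forall (ker_nonneg δ)), ker_integral hδ, ENNReal.ofReal_one]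

lemma kerMeasure_ac (δ : ℝ) : kerMeasure (n := n) δ ≪ volume :=
  withDensity_absolutelyContinuous _ _

lemma kerMeasure_ae_small {δ : ℝ} (hδ : 0 < δ) :
    ∀ᵐ y ∂kerMeasure (n := n) δ, ∀ l, |y l| < δ := by
  have hm : Measurable fun y : Fin n → ℝ => ENNReal.ofReal (ker δ y) :=
    (ker_continuous δ).measurable.ennreal_ofReal
  rw [kerMeasure, ae_withDensity_iff hm]
  refine Eventually.of_forall fun y hy l => not_le.1 fun h => hy ?_
  simp [ker_eq_zero hδ h]

lemma integral_kerMeasure {E : Type*} [NormedAddCommGroup E] [NormedSpace ℝ E] (δ : ℝ)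
    (F : (Fin n → ℝ) → E) : ∫ y, F y ∂kerMeasure δ = ∫ y, ker δ y • F y := by
  rw [kerMeasure, integral_withDensity_eq_integral_toReal_smul
    (ker_continuous δ).measurable.ennreal_ofReal (Eventually.of_forall fun _ => ENNReal.ofReal_lt_top)]
  exact integral_congr_ae (Eventually.of_forall fun y => by
    simp [ENNReal.toReal_ofReal (ker_nonneg δ y)])

lemma moll_eq_kerMeasure (δ : ℝ) (g : (Fin n → ℝ) → ℝ) (x : Fin n → ℝ) :
    moll δ g x = ∫ y, g (x - y) ∂kerMeasure δ := by
  simp [moll, integral_kerMeasure]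

lemma moll_eq_convolution (δ : ℝ) (g : (Fin n → ℝ) → ℝ) :
    moll δ g = MeasureTheory.convolution (ker δ) g (ContinuousLinearMap.lsmul ℝ ℝ) volume := by
  funext x
  simp [moll, MeasureTheory.convolution_def]

lemma ker_mul_integrable {δ : ℝ} (hδ : 0 < δ) {g : (Fin n → ℝ) → ℝ} (hg : LocallyIntegrable g)
    (x : Fin n → ℝ) : Integrable fun y => ker δ y * g (x - y) := by
  have := (ker_hasCompactSupport (n := n) hδ).convolutionExists_left
    (ContinuousLinearMap.lsmul ℝ ℝ) (ker_continuous δ) hg x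
  simpa [MeasureTheory.ConvolutionExistsAt] using this

lemma kerMeasure_integrable {δ : ℝ} (hδ : 0 < δ) {g : (Fin n → ℝ) → ℝ} (hg : LocallyIntegrable g)
    (x : Fin n → ℝ) : Integrable (fun y => g (x - y)) (kerMeasure δ) := by
  rw [kerMeasure, integrable_withDensity_iff_integrable_smul'
    (ker_continuous δ).measurable.ennreal_ofReal (Eventually.of_forall fun _ => ENNReal.ofReal_lt_top)]
  refine (ker_mul_integrable hδ hg x).congr (Eventually.of_forall fun y => ?_)
  simp [ENNReal.toReal_ofReal (ker_nonneg δ y)]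

lemma moll_contDiff {δ : ℝ} (hδ : 0 < δ) {g : (Fin n → ℝ) → ℝ} (hg : LocallyIntegrable g) :
    ContDiff ℝ ∞ (moll δ g) := by
  rw [moll_eq_convolution]
  exact (ker_hasCompactSupport hδ).contDiff_convolution_left _ (ker_contDiff δ) hg

lemma moll_continuous {δ : ℝ} (hδ : 0 < δ) {g : (Fin n → ℝ) → ℝ} (hg : LocallyIntegrable g) :
    Continuous (moll δ g) := (moll_contDiff hδ hg).continuous

/-- Differentiating a mollification puts the derivative on the kernel. -/
lemma pd_moll {δ : ℝ} (hδ : 0 < δ) {g : (Fin n → ℝ) → ℝ} (hg : LocallyIntegrable g)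
    (j : Fin n) (x : Fin n → ℝ) :
    pd (moll δ g) j x = ∫ z, g z * pd (ker δ) j (x - z) := by
  have h := (ker_hasCompactSupport (n := n) hδ).hasFDerivAt_convolution_left
    (ContinuousLinearMap.lsmul ℝ ℝ) ((ker_contDiff δ).of_le (by norm_num)) hg x
  have hk : Continuous (fderiv ℝ (ker (n := n) δ)) :=
    (ker_contDiff δ).continuous_fderiv (by norm_num)
  have hex := ((ker_hasCompactSupport (n := n) hδ).fderiv (𝕜 := ℝ)).convolutionExists_left
    ((ContinuousLinearMap.lsmul ℝ ℝ).precompL (Fin n → ℝ)) hk hg x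
  rw [← moll_eq_convolution] at h
  rw [pd, h.fderiv, MeasureTheory.convolution_def]
  rw [ContinuousLinearMap.integral_apply hex]
  rw [← integral_sub_left_eq_self _ volume x]
  refine integral_congr_ae (Eventually.of_forall fun z => ?_)
  simp [ContinuousLinearMap.precompL_apply, pd, mul_comm]

/-- Uniform approximation where the oscillation is small. -/
lemma abs_moll_sub_le {δ : ℝ} (hδ : 0 < δ) {g : (Fin n → ℝ) → ℝ} (hg : LocallyIntegrable g)
    {x : Fin n → ℝ} {e : ℝ}
    (h : ∀ y : Fin n → ℝ, (∀ l, |y l| < δ) → |g (x - y) - g x| ≤ e) :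
    |moll δ g x - g x| ≤ e := by
  have := kerMeasure_prob (n := n) hδ
  rw [moll_eq_kerMeasure]
  have h1 : ∫ y, (g (x - y) - g x) ∂kerMeasure δ = (∫ y, g (x - y) ∂kerMeasure δ) - g x := by
    rw [integral_sub (kerMeasure_integrable hδ hg x) (integrable_const _)]; simp
  rw [← h1, ← Real.norm_eq_abs]
  have h2 := norm_integral_le_of_norm_le_const (μ := kerMeasure (n := n) δ)
    (f := fun y => g (x - y) - g x) (C := e)
    ((kerMeasure_ae_small hδ).mono fun y hy => by rw [Real.norm_eq_abs]; exact h y hy)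
  simpa using h2

lemma uniform_moll {g : (Fin n → ℝ) → ℝ} (hg : Continuous g) {S : Set (Fin n → ℝ)}
    (hS : IsCompact S) {e : ℝ} (he : 0 < e) :
    ∀ᶠ δ in 𝓝[>] (0 : ℝ), ∀ x ∈ S, |moll δ g x - g x| ≤ e := by
  have huc := hS.uniformContinuousAt_of_continuousAt g (fun x _ => hg.continuousAt)
    (Metric.dist_mem_uniformity he)
  obtain ⟨d, hd, hd'⟩ := Metric.mem_uniformity_dist.1 huc
  filter_upwards [Ioo_mem_nhdsGT hd] with δ hδ x hx
  refine abs_moll_sub_le hδ.1 hg.locallyIntegrable fun y hy => ?_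
  have hdist : dist x (x - y) < d := by
    rw [dist_eq_norm, sub_sub_cancel]
    exact lt_of_le_of_lt ((pi_norm_le_iff_of_nonneg hδ.1.le).2
      fun l => by rw [Real.norm_eq_abs]; exact (hy l).le) hδ.2
  have := hd' hdist hx
  rw [Set.mem_ofPred_eq, Real.dist_eq] at this
  rw [abs_sub_comm]; exact this.le

/-- Young's inequality for the mollification. -/
lemma eLpNorm_moll_le {δ : ℝ} (hδ : 0 < δ) {p : ℝ≥0∞} (h1 : 1 ≤ p) (htop : p ≠ ⊤)
    {w : (Fin n → ℝ) → ℝ} (hw : AEStronglyMeasurable w volume) :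
    eLpNorm (moll δ w) p volume ≤ eLpNorm w p volume := by
  have := kerMeasure_prob (n := n) hδ
  have : SFinite (kerMeasure (n := n) δ) := inferInstance
  have hp0 : p ≠ 0 := (zero_lt_one.trans_le h1).ne'
  have hq : 0 < p.toReal := ENNReal.toReal_pos hp0 htop
  rw [eLpNorm_eq_lintegral_rpow_enorm_toReal hp0 htop,
    eLpNorm_eq_lintegral_rpow_enorm_toReal hp0 htop]
  refine ENNReal.rpow_le_rpow ?_ (by positivity)
  have hmeas : AEMeasurable (fun z : (Fin n → ℝ) × (Fin n → ℝ) => ‖w (z.1 - z.2)‖ₑ ^ p.toReal)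
      (volume.prod (kerMeasure δ)) := by
    have h0 : Measure.QuasiMeasurePreserving
        (fun z : (Fin n → ℝ) × (Fin n → ℝ) => z.1 - z.2) (volume.prod (kerMeasure δ)) volume :=
      (quasiMeasurePreserving_sub volume volume).mono_left
        ((Measure.AbsolutelyContinuous.refl _).prod (kerMeasure_ac δ))
    exact ((hw.comp_quasiMeasurePreserving h0).enorm).pow_const _
  calc ∫⁻ x, ‖moll δ w x‖ₑ ^ p.toReal
      ≤ ∫⁻ x, ∫⁻ y, ‖w (x - y)‖ₑ ^ p.toReal ∂kerMeasure δ := by
        refine lintegral_mono fun x => ?_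
        have hwx : AEStronglyMeasurable (fun y => w (x - y)) (kerMeasure δ) :=
          (hw.comp_quasiMeasurePreserving
            (Measure.measurePreserving_sub_left volume x).quasiMeasurePreserving).mono_ac
            (kerMeasure_ac δ)
        have hm := eLpNorm_le_eLpNorm_of_exponent_le h1 hwx
        rw [eLpNorm_one_eq_lintegral_enorm, eLpNorm_eq_lintegral_rpow_enorm_toReal hp0 htop] at hm
        have hle : ‖moll δ w x‖ₑ ≤
            (∫⁻ y, ‖w (x - y)‖ₑ ^ p.toReal ∂kerMeasure δ) ^ (1 / p.toReal) := by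
          rw [moll_eq_kerMeasure]
          exact (enorm_integral_le_lintegral_enorm _).trans hm
        calc ‖moll δ w x‖ₑ ^ p.toReal
            ≤ ((∫⁻ y, ‖w (x - y)‖ₑ ^ p.toReal ∂kerMeasure δ) ^ (1 / p.toReal)) ^ p.toReal :=
              ENNReal.rpow_le_rpow hle hq.le
          _ = _ := by rw [← ENNReal.rpow_mul, one_div, inv_mul_cancel₀ hq.ne', ENNReal.rpow_one]
    _ = ∫⁻ y, ∫⁻ x, ‖w (x - y)‖ₑ ^ p.toReal ∂volume ∂kerMeasure δ :=
        lintegral_lintegral_swap hmeas
    _ = ∫⁻ x, ‖w x‖ₑ ^ p.toReal := by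
        have : ∀ y : Fin n → ℝ, ∫⁻ x, ‖w (x - y)‖ₑ ^ p.toReal = ∫⁻ x, ‖w x‖ₑ ^ p.toReal :=
          fun y => lintegral_sub_right_eq_self (fun x => ‖w x‖ₑ ^ p.toReal) y
        simp [this]

lemma moll_sub {δ : ℝ} (hδ : 0 < δ) {f g : (Fin n → ℝ) → ℝ} (hf : LocallyIntegrable f)
    (hg : LocallyIntegrable g) : moll δ (fun x => f x - g x) = fun x => moll δ f x - moll δ g x := by
  funext x
  simp only [moll, mul_sub]
  exact integral_sub (ker_mul_integrable hδ hf x) (ker_mul_integrable hδ hg x)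

/-- Mollifications converge in `L^p`. -/
lemma tendsto_moll {p : ℝ≥0∞} (h1 : 1 ≤ p) (htop : p ≠ ⊤) {w : (Fin n → ℝ) → ℝ}
    (hw : MemLp w p volume) :
    Tendsto (fun δ => eLpNorm (fun x => moll δ w x - w x) p volume) (𝓝[>] (0 : ℝ)) (𝓝 0) := by
  rw [ENNReal.tendsto_nhds_zero]
  intro ε hε
  obtain ⟨ε', hε', h3⟩ : ∃ ε' : ℝ≥0∞, ε' ≠ 0 ∧ ε' + ε' + ε' ≤ ε :=
    ⟨ε / 3, by simp [hε.ne'], (ENNReal.add_thirds ε).le⟩
  obtain ⟨h, hsupp, hwh, hc, hhmem⟩ :=
    hw.exists_hasCompactSupport_eLpNorm_sub_le htop hε'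
  obtain ⟨R, hR⟩ := hsupp.isCompact.isBounded.subset_closedBall (0 : Fin n → ℝ)
  set S : Set (Fin n → ℝ) := Metric.closedBall 0 (R + 1)
  have hS : IsCompact S := isCompact_closedBall _ _
  have hS' : volume S ≠ ⊤ := hS.measure_lt_top.ne
  have hb : ∃ e : ℝ, 0 < e ∧ ENNReal.ofReal e * volume S ^ (1 / p.toReal) ≤ ε' := by
    have ht : Tendsto (fun e : ℝ => ENNReal.ofReal e * volume S ^ (1 / p.toReal))
        (𝓝[>] 0) (𝓝 0) := by
      have h0 : Tendsto (fun e : ℝ => ENNReal.ofReal e) (𝓝[>] 0) (𝓝 (ENNReal.ofReal 0)) :=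
        (ENNReal.continuous_ofReal.tendsto 0).mono_left nhdsWithin_le_nhds
      have := ENNReal.Tendsto.mul_const (b := volume S ^ (1 / p.toReal)) h0
        (Or.inr (ENNReal.rpow_ne_top_of_nonneg (by positivity) hS'))
      simpa using this
    obtain ⟨e, he1, he2⟩ :=
      ((ENNReal.tendsto_nhds_zero.1 ht ε' (pos_iff_ne_zero.2 hε')).and self_mem_nhdsWithin).exists
    exact ⟨e, he2, he1⟩
  obtain ⟨e, he, hee⟩ := hb
  filter_upwards [uniform_moll hc hS he, Ioo_mem_nhdsGT one_pos] with δ hu hδ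
  have hloc : LocallyIntegrable w := hw.locallyIntegrable h1
  have hdiff : LocallyIntegrable (fun x => w x - h x) := hloc.sub hc.locallyIntegrable
  have e1 : (fun x => moll δ w x - w x) = fun x =>
      (moll δ (fun x => w x - h x) x + (moll δ h x - h x)) + (h x - w x) := by
    funext x; rw [moll_sub hδ.1 hloc hc.locallyIntegrable]; ring
  have m1 : AEStronglyMeasurable (moll δ (fun x => w x - h x)) volume :=
    (moll_continuous hδ.1 hdiff).aestronglyMeasurable
  have m2 : AEStronglyMeasurable (fun x => moll δ h x - h x) volume :=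
    ((moll_continuous hδ.1 hc.locallyIntegrable).sub hc).aestronglyMeasurable
  have b1 : eLpNorm (moll δ (fun x => w x - h x)) p volume ≤ ε' :=
    (eLpNorm_moll_le hδ.1 h1 htop (hw.1.sub hc.aestronglyMeasurable)).trans hwh
  have b3 : eLpNorm (fun x => h x - w x) p volume ≤ ε' := by
    have : (fun x => h x - w x) = h - w := rfl
    rw [this, eLpNorm_sub_comm]; exact hwh
  have b2 : eLpNorm (fun x => moll δ h x - h x) p volume ≤ ε' := by
    have hout : ∀ x, x ∉ S → moll δ h x - h x = 0 := by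
      intro x hx
      have hx0 : h x = 0 := image_eq_zero_of_notMem_tsupport fun hm => hx
        (Metric.closedBall_subset_closedBall (by linarith) (hR hm))
      have hz : ∀ y, ker δ y * h (x - y) = 0 := by
        intro y
        by_cases hy : ∀ l, |y l| < δ
        · have : h (x - y) = 0 := image_eq_zero_of_notMem_tsupport fun hm => by
            refine hx ?_
            have h1' := hR hm
            simp only [S, mem_closedBall_zero_iff] at h1' ⊢
            have hy' : ‖y‖ ≤ 1 := (pi_norm_le_iff_of_nonneg one_pos.le).2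
              fun l => by rw [Real.norm_eq_abs]; linarith [hy l, hδ.2]
            calc ‖x‖ = ‖(x - y) + y‖ := by rw [sub_add_cancel]
              _ ≤ ‖x - y‖ + ‖y‖ := norm_add_le _ _
              _ ≤ R + 1 := by linarith
          simp [this]
        · push Not at hy; obtain ⟨l, hl⟩ := hy
          simp [ker_eq_zero hδ.1 hl]
      simp [moll, hz, hx0]
    calc eLpNorm (fun x => moll δ h x - h x) p volume
        ≤ eLpNorm (S.indicator fun _ => e) p volume := by
          refine eLpNorm_mono fun x => ?_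
          by_cases hx : x ∈ S
          · rw [Set.indicator_of_mem hx, Real.norm_eq_abs, Real.norm_eq_abs, abs_of_pos he]
            exact hu x hx
          · simp [hout x hx, hx]
      _ ≤ ENNReal.ofReal e * volume S ^ (1 / p.toReal) := by
          refine (eLpNorm_indicator_const_le e p).trans ?_
          rw [Real.enorm_eq_ofReal he.le]
      _ ≤ ε' := hee
  rw [e1]
  calc eLpNorm _ p volume
      ≤ eLpNorm (fun x => moll δ (fun x => w x - h x) x + (moll δ h x - h x)) p volume +
          eLpNorm (fun x => h x - w x) p volume :=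
        eLpNorm_add_le (m1.add m2) (hc.aestronglyMeasurable.sub hw.1) h1
    _ ≤ (ε' + ε') + ε' := add_le_add ((eLpNorm_add_le m1 m2 h1).trans (add_le_add b1 b2)) b3
    _ ≤ ε := h3

end Vale.Agent.P073
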