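import Vale.Agent.P073.Extend
import Vale.Agent.P073.Kernel

/-! A periodic cutoff vanishing near the lattice hyperplanes. -/

open MeasureTheory Set Filter
open scoped ContDiff Topology ENNReal

namespace Vale.Agent.P073

variable {n : ℕ}

/-- One dimensional periodic cutoff. -/
noncomputable def eta (δ u : ℝ) : ℝ :=
  Real.smoothTransition (Real.sin (Real.pi * u) ^ 2 / δ ^ 2 - 1)

/-- The product cutoff. -/
noncomputable def cut (δ : ℝ) (x : Fin n → ℝ) : ℝ := ∏ l, eta δ (x l)

lemma eta_contDiff (δ : ℝ) : ContDiff ℝ ∞ (eta δ) := by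
  refine Real.smoothTransition.contDiff.comp ?_
  exact (((Real.contDiff_sin.comp (contDiff_const.mul contDiff_id)).pow 2).div_const _).sub
    contDiff_const

lemma cut_contDiff (δ : ℝ) : ContDiff ℝ ∞ (cut (n := n) δ) :=
  contDiff_prod fun l _ => (eta_contDiff δ).comp (contDiff_apply ℝ ℝ l)

lemma cut_mem (δ : ℝ) (x : Fin n → ℝ) : 0 ≤ cut δ x ∧ cut δ x ≤ 1 :=
  ⟨Finset.prod_nonneg fun _ _ => Real.smoothTransition.nonneg _,
    Finset.prod_le_one (fun _ _ => Real.smoothTransition.nonneg _)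
      fun _ _ => Real.smoothTransition.le_one _⟩

lemma eta_eq_zero {δ u : ℝ} (hδ : 0 < δ) (h : |Real.sin (Real.pi * u)| ≤ δ) : eta δ u = 0 := by
  refine Real.smoothTransition.zero_of_nonpos ?_
  rw [sub_nonpos, div_le_one (by positivity)]
  nlinarith [sq_abs (Real.sin (Real.pi * u)), abs_nonneg (Real.sin (Real.pi * u))]

lemma eta_eq_one {δ u : ℝ} (hδ : 0 < δ) (h : 2 * δ ≤ |Real.sin (Real.pi * u)|) : eta δ u = 1 := by
  refine Real.smoothTransition.one_of_one_le ?_
  rw [le_sub_iff_add_le, le_div_iff₀ (by positivity)]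
  nlinarith [sq_abs (Real.sin (Real.pi * u)), abs_nonneg (Real.sin (Real.pi * u))]

lemma cut_tendsto {x : Fin n → ℝ} (hx : ∃ k, x ∈ cell k) :
    Tendsto (fun δ => cut δ x) (𝓝[>] (0 : ℝ)) (𝓝 1) := by
  refine tendsto_nhds_of_eventually_eq ?_
  obtain ⟨k, hk⟩ := hx
  have hs : ∀ l, Real.sin (Real.pi * x l) ≠ 0 := by
    intro l h
    obtain ⟨m, hm⟩ := Real.sin_eq_zero_iff.1 h
    have hxm : x l = m := mul_left_cancel₀ Real.pi_ne_zero (by linarith)
    have h1 := mem_cell.1 hk l
    rw [hxm] at h1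
    have a : k l < m := by exact_mod_cast h1.1
    have b : m < k l + 1 := by exact_mod_cast h1.2
    omega
  have : ∀ᶠ δ in 𝓝[>] (0 : ℝ), ∀ l, eta δ (x l) = 1 := by
    refine eventually_all.2 fun l => ?_
    filter_upwards [Ioo_mem_nhdsGT (half_pos (abs_pos.2 (hs l)))] with δ hδ
    exact eta_eq_one hδ.1 (by linarith [hδ.2])
  filter_upwards [this] with δ hδ
  simp [cut, hδ]

lemma exists_deriv_smoothTransition_bound :
    ∃ M, 0 ≤ M ∧ ∀ s, |deriv Real.smoothTransition s| ≤ M := by
  have hc : Continuous (deriv Real.smoothTransition) :=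
    (Real.smoothTransition.contDiff (n := 1)).continuous_deriv le_rfl
  obtain ⟨M, hM⟩ := (isCompact_Icc (a := (-1 : ℝ)) (b := 2)).exists_bound_of_continuousOn
    hc.continuousOn
  refine ⟨max M 0, le_max_right _ _, fun s => ?_⟩
  by_cases hs : s ∈ Set.Icc (-1 : ℝ) 2
  · exact (hM s hs).trans (le_max_left _ _)
  · rcases not_and_or.1 hs with h | h
    · have : Real.smoothTransition =ᶠ[𝓝 s] fun _ => 0 := by
        filter_upwards [Iio_mem_nhds (not_le.1 h)] with t ht
        exact Real.smoothTransition.zero_of_nonpos (by linarith [Set.mem_Iio.1 ht])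
      simp [this.deriv_eq]
    · have : Real.smoothTransition =ᶠ[𝓝 s] fun _ => 1 := by
        filter_upwards [Ioi_mem_nhds (not_le.1 h)] with t ht
        exact Real.smoothTransition.one_of_one_le (by linarith [Set.mem_Ioi.1 ht])
      simp [this.deriv_eq]

lemma pd_cut (δ : ℝ) (j : Fin n) (x : Fin n → ℝ) :
    pd (cut δ) j x = deriv (eta δ) (x j) * ∏ l ∈ Finset.univ.erase j, eta δ (x l) := by
  have hd : DifferentiableAt ℝ (cut (n := n) δ) x :=
    ((cut_contDiff δ).differentiable (by norm_num)).differentiableAt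
  have h1 : HasLineDerivAt ℝ (cut δ) (fderiv ℝ (cut δ) x (Pi.single j 1)) x (Pi.single j 1) :=
    hd.hasFDerivAt.hasLineDerivAt _
  have he : (fun t : ℝ => cut δ (x + t • Pi.single j (1 : ℝ))) =
      fun t => eta δ (x j + t) * ∏ l ∈ Finset.univ.erase j, eta δ (x l) := by
    funext t
    rw [cut, ← Finset.mul_prod_erase _ _ (Finset.mem_univ j)]
    congr 1
    · simp
    · refine Finset.prod_congr rfl fun l hl => ?_
      simp [(Finset.mem_erase.1 hl).1]
  have h0 : HasDerivAt (fun t => eta δ (x j + t)) (deriv (eta δ) (x j)) 0 := by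
    have := (((eta_contDiff δ).differentiable (by norm_num)) (x j)).hasDerivAt
    exact HasDerivAt.comp_const_add (x j) 0 (by simpa using this)
  have h2 : HasDerivAt (fun t : ℝ => cut δ (x + t • Pi.single j (1 : ℝ)))
      (deriv (eta δ) (x j) * ∏ l ∈ Finset.univ.erase j, eta δ (x l)) 0 := by
    rw [he]; exact h0.mul_const _
  exact HasDerivAt.unique h1 h2

lemma abs_deriv_eta_le {M δ : ℝ} (hM0 : 0 ≤ M)
    (hM : ∀ s, |deriv Real.smoothTransition s| ≤ M) (hδ : 0 < δ) (u : ℝ) :
    |deriv (eta δ) u| ≤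
      {v : ℝ | |Real.sin (Real.pi * v)| ≤ 2 * δ}.indicator (fun _ => 16 * M / δ) u := by
  by_cases hu : |Real.sin (Real.pi * u)| ≤ 2 * δ
  · rw [Set.indicator_of_mem (show u ∈ {v : ℝ | |Real.sin (Real.pi * v)| ≤ 2 * δ} from hu)]
    have h1 : HasDerivAt (fun v => Real.sin (Real.pi * v) ^ 2 / δ ^ 2 - 1)
        (2 * Real.sin (Real.pi * u) * (Real.cos (Real.pi * u) * Real.pi) / δ ^ 2) u := by
      simpa using ((((hasDerivAt_id u).const_mul Real.pi).sin.pow 2).div_const (δ ^ 2)).sub_const 1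
    have h2 : HasDerivAt (eta δ) _ u :=
      (((Real.smoothTransition.contDiff (n := 1)).differentiable (by norm_num)) _).hasDerivAt.comp u h1
    rw [h2.deriv, abs_mul, abs_div, abs_of_pos (by positivity : 0 < δ ^ 2), abs_mul, abs_mul,
      abs_mul, abs_two, abs_of_pos Real.pi_pos]
    calc |deriv Real.smoothTransition _| *
          (2 * |Real.sin (Real.pi * u)| * (|Real.cos (Real.pi * u)| * Real.pi) / δ ^ 2)
        ≤ M * (2 * (2 * δ) * (1 * 4) / δ ^ 2) := by
          gcongr
          · exact hM _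
          · exact Real.abs_cos_le_one _
          · exact Real.pi_le_four
      _ = 16 * M / δ := by field_simp; ring
  · rw [Set.indicator_of_notMem (show u ∉ {v : ℝ | |Real.sin (Real.pi * v)| ≤ 2 * δ} from hu)]
    have : eta δ =ᶠ[𝓝 u] fun _ => 1 := by
      have hc : Continuous fun v : ℝ => |Real.sin (Real.pi * v)| := by fun_prop
      filter_upwards [continuousAt_const.eventually_lt hc.continuousAt (not_le.1 hu)] with v hv
      exact eta_eq_one hδ hv.le
    simp [this.deriv_eq]

lemma abs_pd_cut_le {M δ : ℝ} (hM0 : 0 ≤ M)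
    (hM : ∀ s, |deriv Real.smoothTransition s| ≤ M) (hδ : 0 < δ) (j : Fin n) (x : Fin n → ℝ) :
    |pd (cut δ) j x| ≤
      {y : Fin n → ℝ | |Real.sin (Real.pi * y j)| ≤ 2 * δ}.indicator (fun _ => 16 * M / δ) x := by
  have hp : |∏ l ∈ Finset.univ.erase j, eta δ (x l)| ≤ 1 := by
    rw [Finset.abs_prod]
    refine Finset.prod_le_one (fun _ _ => abs_nonneg _) fun l _ => ?_
    rw [eta, abs_of_nonneg (Real.smoothTransition.nonneg _)]
    exact Real.smoothTransition.le_one _
  rw [pd_cut, abs_mul]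
  calc |deriv (eta δ) (x j)| * |∏ l ∈ Finset.univ.erase j, eta δ (x l)|
      ≤ |deriv (eta δ) (x j)| := mul_le_of_le_one_right (abs_nonneg _) hp
    _ ≤ _ := abs_deriv_eta_le hM0 hM hδ (x j)

lemma near_int_of_sin {δ u : ℝ} (h : |Real.sin (Real.pi * u)| ≤ 2 * δ) :
    |u - round u| ≤ δ := by
  have hv : |u - round u| ≤ 1 / 2 := abs_sub_round u
  have hsin : |Real.sin (Real.pi * (u - round u))| = |Real.sin (Real.pi * u)| := by
    rw [mul_sub, mul_comm Real.pi (round u : ℝ), Real.sin_sub_int_mul_pi, abs_mul, abs_zpow]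
    simp
  have hj : 2 / Real.pi * |Real.pi * (u - round u)| ≤ |Real.sin (Real.pi * (u - round u))| := by
    refine Real.mul_abs_le_abs_sin ?_
    rw [abs_mul, abs_of_pos Real.pi_pos]; nlinarith [Real.pi_pos]
  rw [hsin, abs_mul, abs_of_pos Real.pi_pos, ← mul_assoc, div_mul_cancel₀ _ Real.pi_ne_zero] at hj
  linarith

lemma volume_strip_le {δ : ℝ} (hδ : 0 < δ) (j : Fin n) (N : ℕ) :
    volume (box n N ∩ {y | |Real.sin (Real.pi * y j)| ≤ 2 * δ}) ≤
      ENNReal.ofReal ((2 * N + 3) * ((2 * N) ^ (n - 1) * (2 * δ))) := by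
  set S : ℤ → Set (Fin n → ℝ) := fun m => Set.pi Set.univ
    (Function.update (fun _ => Set.Icc (-(N : ℝ)) N) j (Set.Icc ((m : ℝ) - δ) (m + δ)))
  have hsub : box n N ∩ {y | |Real.sin (Real.pi * y j)| ≤ 2 * δ} ⊆
      ⋃ m ∈ Finset.Icc (-(N : ℤ) - 1) (N + 1), S m := by
    rintro y ⟨hy, hs⟩
    have hn := near_int_of_sin hs
    have hb := abs_le.1 (mem_box.1 hy j)
    have hr := abs_le.1 (abs_sub_round (y j))
    refine Set.mem_iUnion₂.2 ⟨round (y j), Finset.mem_Icc.2 ⟨?_, ?_⟩, ?_⟩
    · have : ((-(N : ℤ) - 1 : ℤ) : ℝ) ≤ round (y j) := by push_cast; linarith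
      exact_mod_cast this
    · have : (round (y j) : ℝ) ≤ ((N + 1 : ℤ) : ℝ) := by push_cast; linarith
      exact_mod_cast this
    · intro l _
      rcases eq_or_ne l j with h | h
      · subst h
        rw [Function.update_self]
        have := abs_le.1 hn
        exact ⟨by linarith, by linarith⟩
      · rw [Function.update_of_ne h]
        exact abs_le.1 (mem_box.1 hy l)
  have hS : ∀ m, volume (S m) = ENNReal.ofReal ((2 * N) ^ (n - 1) * (2 * δ)) := by
    intro m
    rw [volume_pi_pi, ← Finset.mul_prod_erase _ _ (Finset.mem_univ j), Function.update_self,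
      Finset.prod_congr rfl (fun l hl => by rw [Function.update_of_ne (Finset.mem_erase.1 hl).1])]
    simp only [Real.volume_Icc, Finset.prod_const, Finset.card_erase_of_mem (Finset.mem_univ j),
      Finset.card_univ, Fintype.card_fin]
    rw [← ENNReal.ofReal_pow (by linarith [Nat.cast_nonneg (α := ℝ) N]),
      ← ENNReal.ofReal_mul (by linarith)]
    congr 1; ring
  calc volume (box n N ∩ {y | |Real.sin (Real.pi * y j)| ≤ 2 * δ})
      ≤ volume (⋃ m ∈ Finset.Icc (-(N : ℤ) - 1) (N + 1), S m) := measure_mono hsub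
    _ ≤ ∑ m ∈ Finset.Icc (-(N : ℤ) - 1) (N + 1), volume (S m) := measure_biUnion_finset_le _ _
    _ = (2 * N + 3 : ℕ) * ENNReal.ofReal ((2 * N) ^ (n - 1) * (2 * δ)) := by
        simp only [hS, Finset.sum_const, Int.card_Icc, nsmul_eq_mul]
        congr 2
        omega
    _ = _ := by
        rw [← ENNReal.ofReal_natCast, ← ENNReal.ofReal_mul (Nat.cast_nonneg _)]
        push_cast; rfl

lemma pd_cut_L1_bound (j : Fin n) (N : ℕ) :
    ∃ C, 0 ≤ C ∧ ∀ δ : ℝ, 0 < δ → ∫ x in box n N, |pd (cut δ) j x| ≤ C := by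
  obtain ⟨M, hM0, hM⟩ := exists_deriv_smoothTransition_bound
  refine ⟨16 * M * ((2 * N + 3) * ((2 * N) ^ (n - 1) * 2)), by positivity, fun δ hδ => ?_⟩
  set T : Set (Fin n → ℝ) := {y | |Real.sin (Real.pi * y j)| ≤ 2 * δ}
  have hT : MeasurableSet T := measurableSet_le (by fun_prop) measurable_const
  have hfin : IsFiniteMeasure (volume.restrict (box n N)) :=
    ⟨by rw [Measure.restrict_apply_univ]; exact (box_isCompact N).measure_lt_top⟩
  calc ∫ x in box n N, |pd (cut δ) j x|
      ≤ ∫ x in box n N, T.indicator (fun _ => 16 * M / δ) x := by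
        refine integral_mono_of_nonneg (Eventually.of_forall fun _ => abs_nonneg _)
          ((integrable_const _).indicator hT) (Eventually.of_forall fun x => ?_)
        exact abs_pd_cut_le hM0 hM hδ j x
    _ = volume.real (box n N ∩ T) * (16 * M / δ) := by
        rw [setIntegral_indicator hT, setIntegral_const, smul_eq_mul]
    _ ≤ ((2 * N + 3) * ((2 * N) ^ (n - 1) * (2 * δ))) * (16 * M / δ) := by
        refine mul_le_mul_of_nonneg_right ?_ (by positivity)
        exact ENNReal.toReal_le_of_le_ofReal (by positivity) (volume_strip_le hδ j N)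
    _ = _ := by field_simp

end Vale.Agent.P073
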