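import Mathlib

/-! Definitions for the statement on diffeomorphic approximation on the open cube. -/

open MeasureTheory Set
open scoped ContDiff

namespace Vale.Agent.P073

variable {n : ℕ}

/-- The open unit cube. -/
def cube (n : ℕ) : Set (Fin n → ℝ) := Set.pi Set.univ fun _ => Set.Ioo (0 : ℝ) 1

/-- The `j`-th classical partial derivative of a real function. -/
noncomputable def pd (φ : (Fin n → ℝ) → ℝ) (j : Fin n) (x : Fin n → ℝ) : ℝ :=
  fderiv ℝ φ x (Pi.single j 1)

/-- `G` is the weak gradient of `g` on `U`, tested against smooth functions compactly supported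
in `U`. -/
def IsWeakGrad (U : Set (Fin n → ℝ)) (g : (Fin n → ℝ) → ℝ)
    (G : (Fin n → ℝ) → Fin n → ℝ) : Prop :=
  ∀ φ : (Fin n → ℝ) → ℝ, ContDiff ℝ ∞ φ → HasCompactSupport φ → tsupport φ ⊆ U →
    ∀ j, ∫ x in U, g x * pd φ j x = - ∫ x in U, G x j * φ x

/-- A smooth bijection of the open cube onto itself with smooth inverse. -/
def IsCubeDiffeo (g : (Fin n → ℝ) → Fin n → ℝ) : Prop :=
  ContDiffOn ℝ ∞ g (cube n) ∧ Set.BijOn g (cube n) (cube n) ∧
    ∃ h : (Fin n → ℝ) → Fin n → ℝ, ContDiffOn ℝ ∞ h (cube n) ∧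
      ∀ x ∈ cube n, h (g x) = x

/-- `f`, with weak Jacobian matrix `D`, is a limit in the `W^{1,p}` norm of the open cube of
diffeomorphisms of the cube onto itself, each of them in `W^{1,p}`. -/
def IsDiffeoApproximable (p : ENNReal) (f : (Fin n → ℝ) → Fin n → ℝ)
    (D : (Fin n → ℝ) → Fin n → Fin n → ℝ) : Prop :=
  ∃ g : ℕ → (Fin n → ℝ) → Fin n → ℝ,
    (∀ k, IsCubeDiffeo (g k)) ∧
    (∀ k i, MemLp (fun x => g k x i) p (volume.restrict (cube n))) ∧
    (∀ k i j, MemLp (pd (fun x => g k x i) j) p (volume.restrict (cube n))) ∧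
    (∀ i, Filter.Tendsto
      (fun k => eLpNorm (fun x => g k x i - f x i) p (volume.restrict (cube n)))
      Filter.atTop (nhds 0)) ∧
    (∀ i j, Filter.Tendsto
      (fun k => eLpNorm (fun x => pd (fun y => g k y i) j x - D x i j) p
        (volume.restrict (cube n)))
      Filter.atTop (nhds 0))

end Vale.Agent.P073
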