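import Vale.Agent.P073.Tent

/-! Extension of a face preserving map of the cube to space, by reflection. -/

open MeasureTheory Set Filter
open scoped ContDiff Topology ENNReal

namespace Vale.Agent.P073

variable {n : ℕ}

/-- Kronecker delta. -/
def idm (i j : Fin n) : ℝ := if i = j then 1 else 0

/-- The reflected and periodised displacement. -/
noncomputable def extH (f : (Fin n → ℝ) → Fin n → ℝ) (i : Fin n) (x : Fin n → ℝ) : ℝ :=
  sgn1 (x i) * (f (fold x) i - fold x i)

/-- The weak gradient of the reflected displacement. -/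
noncomputable def extE (D : (Fin n → ℝ) → Fin n → Fin n → ℝ) (i j : Fin n) (x : Fin n → ℝ) : ℝ :=
  sgn1 (x i) * sgn1 (x j) * (D (fold x) i j - idm i j)

/-- Hypothesis that every face is sent into itself. -/
def Faces (f : (Fin n → ℝ) → Fin n → ℝ) : Prop :=
  ∀ x ∈ Set.Icc (0 : Fin n → ℝ) 1, ∀ i, (x i = 0 → f x i = 0) ∧ (x i = 1 → f x i = 1)

variable {f : (Fin n → ℝ) → Fin n → ℝ} {D : (Fin n → ℝ) → Fin n → Fin n → ℝ}

lemma face_diff (hface : Faces f) {x : Fin n → ℝ} {i : Fin n}
    (h : Real.sin (Real.pi * x i) = 0) : f (fold x) i - fold x i = 0 := by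
  have hf := hface _ (fold_mem x) i
  rcases tent_endpoint h with e | e
  · have e' : fold x i = 0 := e
    rw [hf.1 e', e', sub_zero]
  · have e' : fold x i = 1 := e
    rw [hf.2 e', e', sub_self]

lemma extH_continuous (hf : ContinuousOn f (Set.Icc 0 1)) (hface : Faces f) (i : Fin n) :
    Continuous (extH f i) := by
  have hu : Continuous fun x : Fin n → ℝ => f (fold x) i - fold x i :=
    ((continuous_apply i).comp (hf.comp_continuous fold_continuous fold_mem)).sub
      ((continuous_apply i).comp fold_continuous)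
  rw [continuous_iff_continuousAt]
  intro x
  by_cases h : Real.sin (Real.pi * x i) = 0
  · have h0 : extH f i x = 0 := by simp [extH, face_diff hface h]
    rw [ContinuousAt, h0]
    refine squeeze_zero_norm (fun y => ?_) (by simpa [face_diff hface h] using (hu.norm).tendsto x)
    rw [extH, norm_mul, Real.norm_eq_abs, abs_sgn1, one_mul]
    exact le_rfl
  · have hev : ∀ᶠ y : Fin n → ℝ in 𝓝 x, sgn1 (y i) = sgn1 (x i) := by
      have hc : Continuous fun y : Fin n → ℝ => Real.sin (Real.pi * y i) := by fun_prop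
      rcases lt_or_gt_of_ne h with h' | h'
      · filter_upwards [hc.continuousAt.eventually_lt continuousAt_const h'] with y hy
        rw [sgn1, sgn1, if_neg (not_le.2 hy), if_neg (not_le.2 h')]
      · filter_upwards [continuousAt_const.eventually_lt hc.continuousAt h'] with y hy
        rw [sgn1, sgn1, if_pos hy.le, if_pos h'.le]
    refine (hu.const_mul (sgn1 (x i))).continuousAt.congr ?_
    filter_upwards [hev] with y hy
    simp [extH, hy]

lemma extH_reflect (hface : Faces f) (i l : Fin n) (m : ℤ) (x : Fin n → ℝ) :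
    extH f i (Function.update x l (2 * (m : ℝ) - x l)) =
      (if l = i then -1 else 1) * extH f i x := by
  have hfold : fold (Function.update x l (2 * (m : ℝ) - x l)) = fold x := by
    funext k
    rcases eq_or_ne k l with hk | hk
    · subst hk
      simp only [fold, Function.update_self]
      rw [show 2 * (m : ℝ) - x k = -(x k) + 2 * m by ring, tent_add_two_mul_int, tent_neg]
    · simp [fold, hk]
  rcases eq_or_ne l i with hl | hl
  · subst hl
    simp only [extH, hfold, Function.update_self, if_true]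
    by_cases h : Real.sin (Real.pi * x l) = 0
    · simp [face_diff hface h]
    · rw [show 2 * (m : ℝ) - x l = -(x l) + 2 * m by ring, sgn1_add_two_mul_int]
      simp only [sgn1, mul_neg, Real.sin_neg]
      rcases lt_or_gt_of_ne h with h' | h'
      · rw [if_pos (by linarith), if_neg (by linarith)]; ring
      · rw [if_neg (by linarith), if_pos h'.le]; ring
  · simp [extH, hfold, hl, hl.symm]

lemma extH_periodic (i : Fin n) (m : Fin n → ℤ) (x : Fin n → ℝ) :
    extH f i (x + fun l => 2 * (m l : ℝ)) = extH f i x := by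
  have hfold : fold (x + fun l => 2 * (m l : ℝ)) = fold x :=
    funext fun l => tent_add_two_mul_int _ _
  simp only [extH, hfold, Pi.add_apply, sgn1_add_two_mul_int]

lemma extH_bounded (hf : ContinuousOn f (Set.Icc 0 1)) (i : Fin n) :
    ∃ C, ∀ x, |extH f i x| ≤ C := by
  obtain ⟨C, hC⟩ := (isCompact_Icc (a := (0 : Fin n → ℝ)) (b := 1)).exists_bound_of_continuousOn
    (((continuous_apply i).comp_continuousOn hf).sub (continuous_apply i).continuousOn)
  refine ⟨C, fun x => ?_⟩
  rw [extH, abs_mul, abs_sgn1, one_mul]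
  exact hC _ (fold_mem x)

lemma extH_of_mem {y : Fin n → ℝ} (hy : y ∈ Set.Icc (0 : Fin n → ℝ) 1) (i : Fin n) :
    extH f i y = f y i - y i := by
  rw [extH, fold_of_mem hy, sgn1_of_mem ⟨hy.1 i, hy.2 i⟩, one_mul]

lemma extE_of_mem {y : Fin n → ℝ} (hy : y ∈ Set.Icc (0 : Fin n → ℝ) 1) (i j : Fin n) :
    extE D i j y = D y i j - idm i j := by
  rw [extE, fold_of_mem hy, sgn1_of_mem ⟨hy.1 i, hy.2 i⟩, sgn1_of_mem ⟨hy.1 j, hy.2 j⟩]
  ring

lemma extH_unfold (k : Fin n → ℤ) {y : Fin n → ℝ} (hy : y ∈ cube n) (i : Fin n) :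
    extH f i (unfold' k y) = csgn k i * (f y i - y i) := by
  rw [extH, fold_unfold k hy, sgn1_unfold k hy]

lemma extE_unfold (k : Fin n → ℤ) {y : Fin n → ℝ} (hy : y ∈ cube n) (i j : Fin n) :
    extE D i j (unfold' k y) = csgn k i * csgn k j * (D y i j - idm i j) := by
  rw [extE, fold_unfold k hy, sgn1_unfold k hy, sgn1_unfold k hy]

/-- A centred box. -/
def box (n N : ℕ) : Set (Fin n → ℝ) := Set.pi Set.univ fun _ => Set.Icc (-(N : ℝ)) N

lemma box_isCompact (N : ℕ) : IsCompact (box n N) := isCompact_univ_pi fun _ => isCompact_Icc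

lemma mem_box {N : ℕ} {x : Fin n → ℝ} : x ∈ box n N ↔ ∀ l, |x l| ≤ N := by
  simp [box, abs_le, Pi.le_def, forall_and]

lemma extE_memLp {p : ℝ≥0∞}
    (hD : ∀ i j, MemLp (fun x => D x i j) p (volume.restrict (cube n)))
    (i j : Fin n) (N : ℕ) : MemLp (extE D i j) p (volume.restrict (box n N)) := by
  classical
  have : IsFiniteMeasure (volume.restrict (cube n)) := by
    refine ⟨?_⟩
    rw [Measure.restrict_apply_univ]
    exact (measure_mono cube_subset_Icc).trans_lt isCompact_Icc.measure_lt_top
  have hcell : ∀ k : Fin n → ℤ, MemLp ((cell k).indicator (extE D i j)) p volume := by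
    intro k
    rw [memLp_indicator_iff_restrict (cell_isOpen k).measurableSet]
    rw [← (unfold'_restrict k).map_eq, (unfold'_embedding k).memLp_map_measure_iff]
    refine MemLp.ae_eq ?_ (((hD i j).sub (memLp_const (idm i j))).const_mul (csgn k i * csgn k j))
    filter_upwards [ae_restrict_mem cube_isOpen.measurableSet] with y hy
    simp [extE_unfold k hy]
  set S : Finset (Fin n → ℤ) := Fintype.piFinset fun _ => Finset.Icc (-(N : ℤ) - 1) (N + 1)
  have hsum : MemLp (fun x => ∑ k ∈ S, (cell k).indicator (extE D i j) x) p volume :=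
    memLp_finsetSum S fun k _ => hcell k
  refine MemLp.ae_eq ?_ (hsum.restrict (box n N))
  filter_upwards [ae_restrict_mem (box_isCompact N).measurableSet,
    ae_restrict_of_ae ae_mem_cell] with x hx hk
  obtain ⟨k, hk⟩ := hk
  have hkS : k ∈ S := by
    refine Fintype.mem_piFinset.2 fun l => Finset.mem_Icc.2 ?_
    have h1 := mem_cell.1 hk l
    have h2 := abs_le.1 (mem_box.1 hx l)
    constructor
    · have : (-(N : ℤ) - 1 : ℝ) ≤ k l := by push_cast; linarith [h1.2, h2.1]
      exact_mod_cast this
    · have : (k l : ℝ) ≤ (N + 1 : ℤ) := by push_cast; linarith [h1.1, h2.2]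
      exact_mod_cast this
  rw [Finset.sum_eq_single_of_mem k hkS
    fun k' _ hne => Set.indicator_of_notMem (Set.disjoint_right.1 (cell_disjoint hne) hk) _]
  exact Set.indicator_of_mem hk _

lemma exists_box_superset {K : Set (Fin n → ℝ)} (hK : IsCompact K) : ∃ N, K ⊆ box n N := by
  obtain ⟨R, hR⟩ := hK.isBounded.subset_closedBall (0 : Fin n → ℝ)
  obtain ⟨N, hN⟩ := exists_nat_ge R
  refine ⟨N, fun x hx => mem_box.2 fun l => ?_⟩
  have := mem_closedBall_zero_iff.1 (hR hx)
  have h1 := norm_le_pi_norm x l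
  rw [Real.norm_eq_abs] at h1
  linarith

lemma extE_locallyIntegrable {p : ℝ≥0∞} (hp1 : 1 ≤ p)
    (hD : ∀ i j, MemLp (fun x => D x i j) p (volume.restrict (cube n))) (i j : Fin n) :
    LocallyIntegrable (extE D i j) := by
  rw [locallyIntegrable_iff]
  intro K hK
  obtain ⟨N, hN⟩ := exists_box_superset hK
  have : IsFiniteMeasure (volume.restrict (box n N)) :=
    ⟨by rw [Measure.restrict_apply_univ]; exact (box_isCompact N).measure_lt_top⟩
  exact IntegrableOn.mono_set ((extE_memLp hD i j N).integrable hp1) hN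

lemma jac_mem {K : Set (Fin n → Fin n → ℝ)}
    (hsymm : ∀ M ∈ K, ∀ s : Fin n → ℝ, (∀ i, s i = 1 ∨ s i = -1) →
      (fun i j => s i * s j * M i j) ∈ K)
    (hDK : ∀ᵐ x ∂volume.restrict (cube n), D x ∈ K) :
    ∀ᵐ x : Fin n → ℝ, (fun i j => idm i j + extE D i j x) ∈ K := by
  filter_upwards [fold_quasiMeasurePreserving.ae hDK] with x hx
  have := hsymm _ hx (fun l => sgn1 (x l)) fun l => sgn1_mem _
  convert this using 1
  funext i j
  rcases eq_or_ne i j with h | h
  · subst h; simp [idm, extE, sgn1_sq]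
  · simp [idm, extE, h]

end Vale.Agent.P073
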