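import Vale.Agent.P073.Defs

/-! Global inversion of periodic perturbations of the identity by continuation in a parameter. -/

open MeasureTheory Set Filter
open scoped ContDiff Topology

namespace Vale.Agent.P073

variable {n : ℕ}

/-- The straight homotopy from the identity. -/
def homot (H : (Fin n → ℝ) → Fin n → ℝ) (t : ℝ) (x : Fin n → ℝ) : Fin n → ℝ := x + t • H x

/-- The homotopy with the parameter recorded. -/
def homotP (H : (Fin n → ℝ) → Fin n → ℝ) (q : ℝ × (Fin n → ℝ)) : ℝ × (Fin n → ℝ) :=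
  (q.1, homot H q.1 q.2)

variable {H : (Fin n → ℝ) → Fin n → ℝ}

/-- The standing hypotheses on the perturbation. -/
structure GoodPert (H : (Fin n → ℝ) → Fin n → ℝ) : Prop where
  smooth : ContDiff ℝ ∞ H
  periodic : ∀ (m : Fin n → ℤ) x, H (x + fun l => 2 * (m l : ℝ)) = H x
  bdd : ∃ C, ∀ x, ‖H x‖ ≤ C
  nondeg : ∀ t ∈ Set.Ico (0 : ℝ) 1, ∀ x v, v + t • fderiv ℝ H x v = 0 → v = 0

lemma homot_smooth (hH : GoodPert H) (t : ℝ) : ContDiff ℝ ∞ (homot H t) :=
  contDiff_id.add (hH.smooth.const_smul t)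

lemma homotP_smooth (hH : GoodPert H) : ContDiff ℝ ∞ (homotP H) :=
  contDiff_fst.prodMk (contDiff_snd.add (contDiff_fst.smul (hH.smooth.comp contDiff_snd)))

lemma homot_hasFDerivAt (hH : GoodPert H) (t : ℝ) (x : Fin n → ℝ) :
    HasFDerivAt (homot H t) (ContinuousLinearMap.id ℝ _ + t • fderiv ℝ H x) x :=
  (hasFDerivAt_id x).add (((hH.smooth.differentiable (by norm_num)) x).hasFDerivAt.const_smul t)

lemma homot_fderiv_injective (hH : GoodPert H) {t : ℝ} (ht : t ∈ Set.Ico (0 : ℝ) 1)
    (x : Fin n → ℝ) :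
    Function.Injective (ContinuousLinearMap.id ℝ (Fin n → ℝ) + t • fderiv ℝ H x) := by
  rw [injective_iff_map_eq_zero]
  intro v hv
  exact hH.nondeg t ht x v (by simpa using hv)

/-- The derivative of the homotopy as a linear equivalence. -/
noncomputable def homotEquiv (hH : GoodPert H) {t : ℝ} (ht : t ∈ Set.Ico (0 : ℝ) 1)
    (x : Fin n → ℝ) : (Fin n → ℝ) ≃L[ℝ] (Fin n → ℝ) :=
  (LinearEquiv.ofInjectiveEndo
    (ContinuousLinearMap.id ℝ (Fin n → ℝ) + t • fderiv ℝ H x).toLinearMap
    (homot_fderiv_injective hH ht x)).toContinuousLinearEquiv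

lemma homot_map_nhds (hH : GoodPert H) {t : ℝ} (ht : t ∈ Set.Ico (0 : ℝ) 1) (x : Fin n → ℝ) :
    HasStrictFDerivAt (homot H t) (homotEquiv hH ht x : (Fin n → ℝ) →L[ℝ] (Fin n → ℝ)) x := by
  have h := ((homot_smooth hH t).contDiffAt (x := x)).hasStrictFDerivAt (by norm_num)
  rw [(homot_hasFDerivAt hH t x).fderiv] at h
  exact h

lemma homotP_strict (hH : GoodPert H) {t : ℝ} (ht : t ∈ Set.Ico (0 : ℝ) 1) (x : Fin n → ℝ) :
    ∃ e : (ℝ × (Fin n → ℝ)) ≃L[ℝ] (ℝ × (Fin n → ℝ)),
      HasStrictFDerivAt (homotP H) (e : (ℝ × (Fin n → ℝ)) →L[ℝ] (ℝ × (Fin n → ℝ))) (t, x) := by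
  set L := fderiv ℝ (homotP H) (t, x) with hL
  have h := ((homotP_smooth hH).contDiffAt (x := (t, x))).hasStrictFDerivAt (by norm_num)
  have hd : HasFDerivAt (homotP H)
      ((ContinuousLinearMap.fst ℝ ℝ (Fin n → ℝ)).prod
        (ContinuousLinearMap.snd ℝ ℝ (Fin n → ℝ) +
          (t • (fderiv ℝ H x).comp (ContinuousLinearMap.snd ℝ ℝ (Fin n → ℝ)) +
            (ContinuousLinearMap.fst ℝ ℝ (Fin n → ℝ)).smulRight (H x)))) (t, x) := by
    have h2 : HasFDerivAt (fun q : ℝ × (Fin n → ℝ) => H q.2)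
        ((fderiv ℝ H x).comp (ContinuousLinearMap.snd ℝ ℝ (Fin n → ℝ))) (t, x) :=
      ((hH.smooth.differentiable (by norm_num)) x).hasFDerivAt.comp (t, x) hasFDerivAt_snd
    exact hasFDerivAt_fst.prodMk (hasFDerivAt_snd.add (hasFDerivAt_fst.smul h2))
  have hinj : Function.Injective L := by
    rw [injective_iff_map_eq_zero]
    rintro ⟨s, v⟩ hv
    rw [hL, hd.fderiv] at hv
    simp only [ContinuousLinearMap.prod_apply, Prod.mk_eq_zero] at hv
    obtain ⟨h1, h2⟩ := hv
    simp only [ContinuousLinearMap.coe_fst', ContinuousLinearMap.add_apply,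
      ContinuousLinearMap.coe_snd', ContinuousLinearMap.coe_smul', Pi.smul_apply,
      ContinuousLinearMap.comp_apply, ContinuousLinearMap.smulRight_apply] at h1 h2
    subst h1
    rw [zero_smul, add_zero] at h2
    exact Prod.ext rfl (hH.nondeg t ht x v h2)
  refine ⟨(LinearEquiv.ofInjectiveEndo L.toLinearMap hinj).toContinuousLinearEquiv, ?_⟩
  exact h

lemma homot_shift (hH : GoodPert H) (t : ℝ) (m : Fin n → ℤ) (x : Fin n → ℝ) :
    homot H t (x + fun l => 2 * (m l : ℝ)) = homot H t x + fun l => 2 * (m l : ℝ) := by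
  simp only [homot, hH.periodic]
  abel

lemma homot_injective (hH : GoodPert H) {T : ℝ} (hT : T ∈ Set.Ico (0 : ℝ) 1) :
    Function.Injective (homot H T) := by
  set S := {t : ℝ | Function.Injective (homot H t)}
  have hsub : ∀ t ∈ Set.Icc (0 : ℝ) T, t ∈ Set.Ico (0 : ℝ) 1 := fun t ht =>
    ⟨ht.1, lt_of_le_of_lt ht.2 hT.2⟩
  have h0 : (0 : ℝ) ∈ S := by
    intro a b h; simpa [homot] using h
  have hclosed : IsClosed (S ∩ Set.Icc 0 T) := by
    rw [← isOpen_compl_iff, isOpen_iff_mem_nhds]
    intro t ht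
    by_cases htI : t ∈ Set.Icc 0 T
    · have : ¬Function.Injective (homot H t) := fun hi => ht ⟨hi, htI⟩
      simp only [Function.Injective, not_forall] at this
      obtain ⟨a, b, hab, hne⟩ := this
      obtain ⟨e, he⟩ := homotP_strict hH (hsub t htI) b
      have himg : homotP H '' (Set.univ ×ˢ {z | z ≠ a}) ∈ 𝓝 (t, homot H t b) := by
        have hm := he.map_nhds_eq_of_equiv
        rw [show homotP H (t, b) = (t, homot H t b) from rfl] at hm
        rw [← hm]
        refine image_mem_map (prod_mem_nhds univ_mem ?_)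
        exact isOpen_ne.mem_nhds (fun h => hne h.symm)
      have hc : Tendsto (fun s : ℝ => (s, homot H s a)) (𝓝 t) (𝓝 (t, homot H t b)) := by
        rw [← hab]
        exact (continuous_id.prodMk
          (continuous_const.add (continuous_id.smul continuous_const))).tendsto t
      filter_upwards [hc himg] with s hs
      obtain ⟨⟨s', z⟩, ⟨-, hz⟩, hzs⟩ := hs
      have h1 : s' = s := congrArg Prod.fst hzs
      have h2 : homot H s' z = homot H s a := congrArg Prod.snd hzs
      subst h1
      exact fun hmem => hz (hmem.1 h2)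
    · exact mem_of_superset (isClosed_Icc.isOpen_compl.mem_nhds htI) fun s hs h => hs h.2
  have hgt : ∀ t ∈ S ∩ Set.Ico 0 T, S ∈ 𝓝[>] t := by
    rintro t ⟨htS, htI⟩
    by_contra hcon
    obtain ⟨C, hC⟩ := hH.bdd
    have hC0 : 0 ≤ C := le_trans (norm_nonneg _) (hC 0)
    have hfr : ∃ᶠ s in 𝓝[>] t, s ∉ S ∧ |s| ≤ 1 := by
      have h1 : ∃ᶠ s in 𝓝[>] t, s ∉ S := by
        rw [Filter.Frequently]; simpa using hcon
      refine h1.and_eventually (mem_nhdsWithin_of_mem_nhds ?_)
      have htabs : |t| < 1 := by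
        have := hsub t ⟨htI.1, htI.2.le⟩
        rw [abs_of_nonneg this.1]; exact this.2
      exact (continuous_abs.continuousAt.eventually_lt continuousAt_const htabs).mono fun s hs => hs.le
    obtain ⟨s, hs, hsP⟩ := exists_seq_forall_of_frequently hfr
    have hst : Tendsto s atTop (𝓝 t) := hs.mono_right nhdsWithin_le_nhds
    have hpair : ∀ k, ∃ a b : Fin n → ℝ, a ∈ Metric.closedBall 0 2 ∧
        b ∈ Metric.closedBall 0 (2 + 2 * C) ∧ a ≠ b ∧ homot H (s k) a = homot H (s k) b := by
      intro k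
      have := (hsP k).1
      simp only [S, Set.mem_ofPred_eq, Function.Injective, not_forall] at this
      obtain ⟨a, b, hab, hne⟩ := this
      set m : Fin n → ℤ := fun l => -⌊a l / 2⌋
      have hA : ‖a + fun l => 2 * (m l : ℝ)‖ ≤ 2 := by
        refine (pi_norm_le_iff_of_nonneg two_pos.le).2 fun l => ?_
        have h1 := Int.floor_le (a l / 2)
        have h2 := Int.lt_floor_add_one (a l / 2)
        rw [Real.norm_eq_abs, abs_le]
        simp only [Pi.add_apply, m, Int.cast_neg]
        constructor <;> linarith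
      refine ⟨a + fun l => 2 * (m l : ℝ), b + fun l => 2 * (m l : ℝ), ?_, ?_,
        fun h => hne (add_right_cancel h), by rw [homot_shift hH, homot_shift hH, hab]⟩
      · exact mem_closedBall_zero_iff.2 hA
      · rw [mem_closedBall_zero_iff]
        have hd : ‖b - a‖ ≤ 2 * C := by
          have e : b - a = s k • (H a - H b) := by
            have := hab
            simp only [homot] at this
            funext l
            have hl := congrFun this l
            simp only [Pi.add_apply, Pi.smul_apply, smul_eq_mul] at hl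
            simp only [Pi.sub_apply, Pi.smul_apply, smul_eq_mul]
            linarith
          rw [e, norm_smul, Real.norm_eq_abs]
          calc |s k| * ‖H a - H b‖ ≤ 1 * (C + C) :=
                mul_le_mul (hsP k).2 ((norm_sub_le _ _).trans (add_le_add (hC a) (hC b)))
                  (norm_nonneg _) zero_le_one
            _ = 2 * C := by ring
        calc ‖b + fun l => 2 * (m l : ℝ)‖
            = ‖(a + fun l => 2 * (m l : ℝ)) + (b - a)‖ := by congr 1; abel
          _ ≤ ‖a + fun l => 2 * (m l : ℝ)‖ + ‖b - a‖ := norm_add_le _ _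
          _ ≤ 2 + 2 * C := add_le_add hA hd
    choose a b ha hb hne heq using hpair
    obtain ⟨⟨a', b'⟩, -, φ, hφ, hlim⟩ :=
      ((isCompact_closedBall (0 : Fin n → ℝ) 2).prod
        (isCompact_closedBall (0 : Fin n → ℝ) (2 + 2 * C))).tendsto_subseq
        (x := fun k => (a k, b k)) (fun k => ⟨ha k, hb k⟩)
    have hla : Tendsto (fun k => (s (φ k), a (φ k))) atTop (𝓝 (t, a')) :=
      (hst.comp hφ.tendsto_atTop).prodMk_nhds (continuous_fst.continuousAt.tendsto.comp hlim)
    have hlb : Tendsto (fun k => (s (φ k), b (φ k))) atTop (𝓝 (t, b')) :=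
      (hst.comp hφ.tendsto_atTop).prodMk_nhds (continuous_snd.continuousAt.tendsto.comp hlim)
    have hPc : Continuous (homotP H) := (homotP_smooth hH).continuous
    have heq' : homotP H (t, a') = homotP H (t, b') := by
      refine tendsto_nhds_unique ((hPc.tendsto _).comp hla) ?_
      refine ((hPc.tendsto _).comp hlb).congr fun k => ?_
      show (s (φ k), homot H (s (φ k)) (b (φ k))) = (s (φ k), homot H (s (φ k)) (a (φ k)))
      rw [heq]
    have hab' : a' = b' := htS (congrArg Prod.snd heq')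
    obtain ⟨e, he⟩ := homotP_strict hH (hsub t ⟨htI.1, htI.2.le⟩) a'
    have hev := he.eventually_left_inverse
    rw [← hab'] at hlb
    obtain ⟨k, hk1, hk2⟩ := ((hla.eventually hev).and (hlb.eventually hev)).exists
    have : homotP H (s (φ k), a (φ k)) = homotP H (s (φ k), b (φ k)) :=
      Prod.ext rfl (heq (φ k))
    rw [this, hk2] at hk1
    exact hne (φ k) (congrArg Prod.snd hk1).symm
  exact hclosed.Icc_subset_of_forall_mem_nhdsWithin h0 hgt (Set.right_mem_Icc.2 hT.1)

lemma homot_surjective (hH : GoodPert H) {t : ℝ} (ht : t ∈ Set.Ico (0 : ℝ) 1) :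
    Function.Surjective (homot H t) := by
  have ho : IsOpen (Set.range (homot H t)) := by
    rw [isOpen_iff_mem_nhds]
    rintro y ⟨x, rfl⟩
    rw [← (homot_map_nhds hH ht x).map_nhds_eq_of_equiv]
    exact range_mem_map
  have hc : IsClosed (Set.range (homot H t)) := by
    refine IsSeqClosed.isClosed fun y y0 hy hlim => ?_
    obtain ⟨C, hC⟩ := hH.bdd
    have hC0 : 0 ≤ C := le_trans (norm_nonneg _) (hC 0)
    choose x hx using hy
    obtain ⟨R, hR⟩ := (Metric.isBounded_range_of_tendsto y hlim).subset_closedBall 0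
    obtain ⟨x', -, φ, hφ, hl⟩ := (isCompact_closedBall (0 : Fin n → ℝ) (R + C)).tendsto_subseq
      (x := x) fun k => by
        rw [mem_closedBall_zero_iff]
        have h1 : x k = y k - t • H (x k) := eq_sub_of_add_eq (hx k)
        calc ‖x k‖ = ‖y k - t • H (x k)‖ := by rw [← h1]
          _ ≤ ‖y k‖ + ‖t • H (x k)‖ := norm_sub_le _ _
          _ ≤ R + C := add_le_add (mem_closedBall_zero_iff.1 (hR ⟨k, rfl⟩)) (by
              rw [norm_smul, Real.norm_eq_abs, abs_of_nonneg ht.1]
              calc t * ‖H (x k)‖ ≤ 1 * C := mul_le_mul ht.2.le (hC _) (norm_nonneg _) zero_le_one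
                _ = C := one_mul C)
    refine ⟨x', tendsto_nhds_unique (((homot_smooth hH t).continuous.tendsto _).comp hl) ?_⟩
    exact (hlim.comp hφ.tendsto_atTop).congr fun k => (hx (φ k)).symm
  have := IsClopen.eq_univ ⟨hc, ho⟩ (Set.range_nonempty _)
  exact Set.range_eq_univ.1 this

/-- The homotopy at a fixed parameter is a smooth diffeomorphism of space. -/
lemma homot_inverse (hH : GoodPert H) {t : ℝ} (ht : t ∈ Set.Ico (0 : ℝ) 1) :
    ∃ h : (Fin n → ℝ) → Fin n → ℝ, ContDiff ℝ ∞ h ∧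
      (∀ x, h (homot H t x) = x) ∧ (∀ y, homot H t (h y) = y) := by
  have hbij : Function.Bijective (homot H t) := ⟨homot_injective hH ht, homot_surjective hH ht⟩
  set e := Equiv.ofBijective _ hbij
  have hopen : IsOpenMap e := IsOpenMap.of_nhds_le fun x =>
    ((homot_map_nhds hH ht x).map_nhds_eq_of_equiv).ge
  set Φ : (Fin n → ℝ) ≃ₜ (Fin n → ℝ) :=
    e.toHomeomorphOfContinuousOpen (homot_smooth hH t).continuous hopen
  refine ⟨Φ.symm, Φ.contDiff_symm (f₀' := fun x => homotEquiv hH ht x)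
    (fun x => (homot_map_nhds hH ht x).hasFDerivAt) (homot_smooth hH t),
    fun x => Φ.symm_apply_apply x, fun y => Φ.apply_symm_apply y⟩

end Vale.Agent.P073
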