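import Vale.Agent.P073.Weak
import Vale.Agent.P073.Global

/-! Assembly: approximation by diffeomorphisms of the cube. -/

open MeasureTheory Set Filter
open scoped ContDiff Topology ENNReal

namespace Vale.Agent.P073

variable {n : ℕ}

/-- The mollified displacement. -/
noncomputable def mollH (δ : ℝ) (f : (Fin n → ℝ) → Fin n → ℝ) (x : Fin n → ℝ) : Fin n → ℝ :=
  fun i => moll δ (extH f i) x

variable {f : (Fin n → ℝ) → Fin n → ℝ} {D : (Fin n → ℝ) → Fin n → Fin n → ℝ}
  {K : Set (Fin n → Fin n → ℝ)} {p : ℝ≥0∞}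

lemma mollH_contDiff {δ : ℝ} (hδ : 0 < δ) (hf : ContinuousOn f (Set.Icc 0 1)) (hface : Faces f) :
    ContDiff ℝ ∞ (mollH δ f) :=
  contDiff_pi.2 fun i => moll_contDiff hδ (extH_continuous hf hface i).locallyIntegrable

lemma mollH_periodic (δ : ℝ) (m : Fin n → ℤ) (x : Fin n → ℝ) :
    mollH δ f (x + fun l => 2 * (m l : ℝ)) = mollH δ f x := by
  funext i
  simp only [mollH, moll]
  refine integral_congr_ae (Eventually.of_forall fun y => ?_)
  simp only [add_sub_right_comm, extH_periodic]

lemma mollH_bdd {δ : ℝ} (hδ : 0 < δ) (hf : ContinuousOn f (Set.Icc 0 1)) :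
    ∃ C, ∀ x, ‖mollH δ f x‖ ≤ C := by
  have := kerMeasure_prob (n := n) hδ
  choose C hC using fun i => extH_bounded hf i
  refine ⟨∑ i, |C i|, fun x =>
    (pi_norm_le_iff_of_nonneg (Finset.sum_nonneg fun i _ => abs_nonneg _)).2 fun i => ?_⟩
  simp only [mollH, moll_eq_kerMeasure]
  refine (norm_integral_le_of_norm_le_const (C := |C i|)
    (Eventually.of_forall fun y => (hC i (x - y)).trans (le_abs_self _))).trans ?_
  simpa using Finset.single_le_sum (fun i _ => abs_nonneg (C i)) (Finset.mem_univ i)

lemma jac_moll_mem {δ : ℝ} (hδ : 0 < δ) (hp1 : 1 ≤ p)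
    (hD : ∀ i j, MemLp (fun x => D x i j) p (volume.restrict (cube n)))
    (hconv : Convex ℝ K) (hclosed : IsClosed K)
    (hsymm : ∀ M ∈ K, ∀ s : Fin n → ℝ, (∀ i, s i = 1 ∨ s i = -1) →
      (fun i j => s i * s j * M i j) ∈ K)
    (hDK : ∀ᵐ x ∂volume.restrict (cube n), D x ∈ K) (x : Fin n → ℝ) :
    (fun i j => idm i j + moll δ (extE D i j) x) ∈ K := by
  have := kerMeasure_prob (n := n) hδ
  set F : (Fin n → ℝ) → Fin n → Fin n → ℝ := fun y i j => idm i j + extE D i j (x - y) with hF
  have hI : ∀ i j, Integrable (fun y => F y i j) (kerMeasure δ) := fun i j =>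
    (integrable_const (idm i j)).add (kerMeasure_integrable hδ (extE_locallyIntegrable hp1 hD i j) x)
  have hI1 : ∀ i, Integrable (fun y => F y i) (kerMeasure δ) := fun i =>
    Integrable.of_eval (hI i)
  have hmem : ∀ᵐ y ∂kerMeasure δ, F y ∈ K :=
    (kerMeasure_ac δ).ae_le
      ((Measure.measurePreserving_sub_left volume x).quasiMeasurePreserving.ae (jac_mem hsymm hDK))
  have := hconv.integral_mem hclosed hmem (Integrable.of_eval hI1)
  convert this using 1
  funext i j
  rw [eval_integral hI1, eval_integral (hI i), integral_add (integrable_const _)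
    (kerMeasure_integrable hδ (extE_locallyIntegrable hp1 hD i j) x), moll_eq_kerMeasure]
  simp

lemma mollH_good {δ : ℝ} (hδ : 0 < δ) (hp1 : 1 ≤ p) (hf : ContinuousOn f (Set.Icc 0 1))
    (hface : Faces f) (hD : ∀ i j, MemLp (fun x => D x i j) p (volume.restrict (cube n)))
    (hw : ∀ i, IsWeakGrad (cube n) (fun x => f x i) (fun x => D x i))
    (hconv : Convex ℝ K) (hclosed : IsClosed K)
    (hsymm : ∀ M ∈ K, ∀ s : Fin n → ℝ, (∀ i, s i = 1 ∨ s i = -1) →
      (fun i j => s i * s j * M i j) ∈ K)
    (hdet : ∀ M ∈ K, ∀ ε : ℝ, 0 < ε →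
      (Matrix.of M + ε • (1 : Matrix (Fin n) (Fin n) ℝ)).det ≠ 0)
    (hDK : ∀ᵐ x ∂volume.restrict (cube n), D x ∈ K) :
    GoodPert (mollH δ f) where
  smooth := mollH_contDiff hδ hf hface
  periodic := mollH_periodic δ
  bdd := mollH_bdd hδ hf
  nondeg := by
    intro t ht x v hv
    rcases eq_or_lt_of_le ht.1 with h0 | h0
    · simpa [← h0] using hv
    have hsm : ∀ i, ContDiff ℝ ∞ (moll δ (extH f i)) := fun i =>
      moll_contDiff hδ (extH_continuous hf hface i).locallyIntegrable
    have hder : ∀ i, fderiv ℝ (mollH δ f) x v i = ∑ j, moll δ (extE D i j) x * v j := by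
      intro i
      have hd : fderiv ℝ (mollH δ f) x =
          ContinuousLinearMap.pi fun i => fderiv ℝ (moll δ (extH f i)) x :=
        fderiv_pi fun i => ((hsm i).differentiable (by norm_num)) x
      rw [hd, ContinuousLinearMap.pi_apply]
      conv_lhs => rw [pi_eq_sum_univ' v, map_sum]
      refine Finset.sum_congr rfl fun j _ => ?_
      rw [map_smul, smul_eq_mul, mul_comm, ← pd_moll_extH hp1 hf hface hD hw hδ i j x]
      rfl
    have hK := jac_moll_mem hδ hp1 hD hconv hclosed hsymm hDK x
    set M : Fin n → Fin n → ℝ := fun i j => idm i j + moll δ (extE D i j) x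
    refine Matrix.eq_zero_of_mulVec_eq_zero (hdet M hK ((1 - t) / t) (div_pos (by linarith [ht.2]) h0)) ?_
    funext i
    have hvi := congrFun hv i
    simp only [Pi.add_apply, Pi.smul_apply, smul_eq_mul, Pi.zero_apply, hder] at hvi
    rw [Matrix.add_mulVec, Matrix.smul_mulVec, Matrix.one_mulVec]
    simp only [Pi.add_apply, Pi.smul_apply, smul_eq_mul, Pi.zero_apply, Matrix.mulVec, dotProduct,
      Matrix.of_apply, M, add_mul, Finset.sum_add_distrib]
    have : ∑ j, idm i j * v j = v i := by simp [idm]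
    rw [this]
    field_simp
    linarith

lemma flip_measurePreserving (l : Fin n) :
    MeasurePreserving (fun y : Fin n → ℝ => Function.update y l (-y l)) volume volume := by
  have h : (fun y : Fin n → ℝ => Function.update y l (-y l)) =
      fun y k => (if k = l then (fun u : ℝ => -u) else id) (y k) := by
    funext y k
    rcases eq_or_ne k l with h | h
    · subst h; simp
    · simp [h]
  rw [h]
  refine volume_preserving_pi (f := fun k => if k = l then (fun u : ℝ => -u) else id) fun k => ?_
  split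
  · exact Measure.measurePreserving_neg volume
  · exact MeasurePreserving.id _

lemma mollH_reflect (hface : Faces f) (δ : ℝ) (i l : Fin n) (m : ℤ) (x : Fin n → ℝ) :
    mollH δ f (Function.update x l (2 * (m : ℝ) - x l)) i =
      (if l = i then -1 else 1) * mollH δ f x i := by
  have hc : Continuous (fun y : Fin n → ℝ => Function.update y l (-y l)) :=
    continuous_id.update l (continuous_apply l).neg
  have hinj : Function.Injective (fun y : Fin n → ℝ => Function.update y l (-y l)) := by
    intro a b h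
    funext k
    have := congrFun h k
    rcases eq_or_ne k l with hk | hk
    · subst hk; simpa using this
    · simpa [hk] using this
  simp only [mollH, moll, ← integral_const_mul]
  rw [← (flip_measurePreserving l).integral_comp (hc.measurableEmbedding hinj)]
  refine integral_congr_ae (Eventually.of_forall fun y => ?_)
  show ker δ (Function.update y l (-y l)) *
      extH f i (Function.update x l (2 * (m : ℝ) - x l) - Function.update y l (-y l)) = _
  have e : Function.update x l (2 * (m : ℝ) - x l) - Function.update y l (-y l) =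
      Function.update (x - y) l (2 * (m : ℝ) - (x - y) l) := by
    funext k
    rcases eq_or_ne k l with hk | hk
    · subst hk; simp; ring
    · simp [hk]
  rw [ker_flip, e, extH_reflect hface]
  ring

lemma homot_grid (hface : Faces f) {δ t : ℝ} (hH : GoodPert (mollH δ f))
    (ht : t ∈ Set.Ico (0 : ℝ) 1) (z : Fin n → ℝ) (i : Fin n) (m : ℤ) :
    homot (mollH δ f) t z i = m ↔ z i = m := by
  have hR : homot (mollH δ f) t (Function.update z i (2 * (m : ℝ) - z i)) =
      Function.update (homot (mollH δ f) t z) i (2 * (m : ℝ) - homot (mollH δ f) t z i) := by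
    funext k
    rcases eq_or_ne k i with hk | hk
    · subst hk; simp [homot, mollH_reflect hface]; ring
    · simp [homot, hk, mollH_reflect hface, hk.symm]
  constructor
  · intro h
    have h2 : Function.update (homot (mollH δ f) t z) i (2 * (m : ℝ) - homot (mollH δ f) t z i) =
        homot (mollH δ f) t z := by
      rw [h]; simp [two_mul, ← h]
    rw [h2] at hR
    have := congrFun (homot_injective hH ht hR) i
    rw [Function.update_self] at this
    linarith
  · intro h
    have h2 : Function.update z i (2 * (m : ℝ) - z i) = z := by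
      rw [h]; simp [two_mul, ← h]
    rw [h2] at hR
    have := congrFun hR i
    rw [Function.update_self] at this
    linarith

lemma homot_side (hface : Faces f) {δ t : ℝ} (hH : GoodPert (mollH δ f))
    (ht : t ∈ Set.Ico (0 : ℝ) 1) (z : Fin n → ℝ) (i : Fin n) (m : ℤ) :
    (z i < m → homot (mollH δ f) t z i < m) ∧ ((m : ℝ) < z i → (m : ℝ) < homot (mollH δ f) t z i) := by
  set γ : ℝ → ℝ := fun s => homot (mollH δ f) s z i with hγ
  have hc : ContinuousOn γ (Set.Icc 0 t) := by
    simp only [hγ, homot, Pi.add_apply, Pi.smul_apply, smul_eq_mul]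
    fun_prop
  have h0 : γ 0 = z i := by simp [hγ, homot]
  have hne : z i ≠ m → ∀ s ∈ Set.Icc (0 : ℝ) t, γ s ≠ m := fun hz s hs h =>
    hz ((homot_grid hface hH ⟨hs.1, lt_of_le_of_lt hs.2 ht.2⟩ z i m).1 h)
  constructor <;> intro h <;> by_contra hcon <;> rw [not_lt] at hcon
  · obtain ⟨s, hs, hsv⟩ := intermediate_value_Icc ht.1 hc (show (m : ℝ) ∈ Set.Icc (γ 0) (γ t) from
      ⟨by rw [h0]; exact h.le, hcon⟩)
    exact hne h.ne s hs hsv
  · obtain ⟨s, hs, hsv⟩ := intermediate_value_Icc' ht.1 hc (show (m : ℝ) ∈ Set.Icc (γ t) (γ 0) from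
      ⟨hcon, by rw [h0]; exact h.le⟩)
    exact hne h.ne' s hs hsv

lemma homot_cubeDiffeo (hface : Faces f) {δ t : ℝ} (hH : GoodPert (mollH δ f))
    (ht : t ∈ Set.Ico (0 : ℝ) 1) : IsCubeDiffeo (homot (mollH δ f) t) := by
  obtain ⟨h, hh, hl, hr⟩ := homot_inverse hH ht
  have hiff : ∀ z, homot (mollH δ f) t z ∈ cube n ↔ z ∈ cube n := by
    intro z
    have s0 := fun i => homot_side hface hH ht z i 0
    have s1 := fun i => homot_side hface hH ht z i 1
    have g0 := fun i => (homot_grid hface hH ht z i 0).2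
    have g1 := fun i => (homot_grid hface hH ht z i 1).2
    simp only [Int.cast_zero, Int.cast_one] at s0 s1 g0 g1
    simp only [mem_cube, Set.mem_Ioo]
    refine forall_congr' fun i => ⟨fun hG => ?_, fun hz => ⟨(s0 i).2 hz.1, (s1 i).1 hz.2⟩⟩
    constructor
    · rcases lt_trichotomy (z i) 0 with a | a | a
      · linarith [(s0 i).1 a, hG.1]
      · linarith [g0 i a, hG.1]
      · exact a
    · rcases lt_trichotomy (z i) 1 with a | a | a
      · exact a
      · linarith [g1 i a, hG.2]
      · linarith [(s1 i).2 a, hG.2]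
  refine ⟨(homot_smooth hH t).contDiffOn,
    ⟨fun z hz => (hiff z).2 hz, (homot_injective hH ht).injOn,
      fun y hy => ⟨h y, (hiff _).1 (by rw [hr]; exact hy), hr y⟩⟩,
    h, hh.contDiffOn, fun x _ => hl x⟩

lemma cube_finite : IsFiniteMeasure (volume.restrict (cube n)) :=
  ⟨by rw [Measure.restrict_apply_univ]
      exact (measure_mono cube_subset_Icc).trans_lt isCompact_Icc.measure_lt_top⟩

lemma pd_homot {δ : ℝ} (hδ : 0 < δ) (hp1 : 1 ≤ p) (hf : ContinuousOn f (Set.Icc 0 1))
    (hface : Faces f) (hD : ∀ i j, MemLp (fun x => D x i j) p (volume.restrict (cube n)))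
    (hw : ∀ i, IsWeakGrad (cube n) (fun x => f x i) (fun x => D x i))
    (t : ℝ) (i j : Fin n) (x : Fin n → ℝ) :
    pd (fun y => homot (mollH δ f) t y i) j x = idm i j + t * moll δ (extE D i j) x := by
  have h1 := (ContinuousLinearMap.proj (R := ℝ) (φ := fun _ : Fin n => ℝ) i).hasFDerivAt (x := x)
  have h2 := (((moll_contDiff hδ (extH_continuous hf hface i).locallyIntegrable).differentiable
    (by norm_num)) x).hasFDerivAt.const_mul t
  have h := h1.add h2
  have e : (fun y => homot (mollH δ f) t y i) =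
      (fun y => (ContinuousLinearMap.proj (R := ℝ) (φ := fun _ : Fin n => ℝ) i) y) +
        fun y => t * moll δ (extH f i) y := by
    funext y; simp [homot, mollH]
  rw [pd, e, h.fderiv, ← pd_moll_extH hp1 hf hface hD hw hδ i j x]
  simp [pd, idm, Pi.single_apply]

/-- The approximation theorem. -/
theorem approximable (hp1 : 1 ≤ p) (hp : p ≠ ⊤) (hf : ContinuousOn f (Set.Icc 0 1))
    (hface : Faces f) (hD : ∀ i j, MemLp (fun x => D x i j) p (volume.restrict (cube n)))
    (hw : ∀ i, IsWeakGrad (cube n) (fun x => f x i) (fun x => D x i))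
    (hconv : Convex ℝ K) (hclosed : IsClosed K)
    (hsymm : ∀ M ∈ K, ∀ s : Fin n → ℝ, (∀ i, s i = 1 ∨ s i = -1) →
      (fun i j => s i * s j * M i j) ∈ K)
    (hdet : ∀ M ∈ K, ∀ ε : ℝ, 0 < ε →
      (Matrix.of M + ε • (1 : Matrix (Fin n) (Fin n) ℝ)).det ≠ 0)
    (hDK : ∀ᵐ x ∂volume.restrict (cube n), D x ∈ K) :
    IsDiffeoApproximable p f D := by
  have hfinite := cube_finite (n := n)
  set d : ℕ → ℝ := fun k => ((k : ℝ) + 2)⁻¹ with hdd
  have hd0 : ∀ k, 0 < d k := fun k => by positivity
  have hd1 : ∀ k, d k ≤ 1 / 2 := fun k => by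
    rw [hdd]; show ((k : ℝ) + 2)⁻¹ ≤ 1 / 2
    rw [one_div]; exact inv_anti₀ two_pos (by linarith [Nat.cast_nonneg (α := ℝ) k])
  have hdlim : Tendsto d atTop (𝓝[>] 0) := tendsto_nhdsWithin_iff.2
    ⟨tendsto_inv_atTop_zero.comp (tendsto_atTop_add_const_right _ _ tendsto_natCast_atTop_atTop),
      Eventually.of_forall hd0⟩
  have ht : ∀ k, 1 - d k ∈ Set.Ico (0 : ℝ) 1 := fun k =>
    ⟨by linarith [hd1 k], by linarith [hd0 k]⟩
  have hH : ∀ k, GoodPert (mollH (d k) f) := fun k =>
    mollH_good (hd0 k) hp1 hf hface hD hw hconv hclosed hsymm hdet hDK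
  have hpd : ∀ k i j x, pd (fun y => homot (mollH (d k) f) (1 - d k) y i) j x =
      idm i j + (1 - d k) * moll (d k) (extE D i j) x :=
    fun k => pd_homot (hd0 k) hp1 hf hface hD hw (1 - d k)
  refine ⟨fun k => homot (mollH (d k) f) (1 - d k),
    fun k => homot_cubeDiffeo hface (hH k) (ht k), ?_, ?_, ?_, ?_⟩
  · intro k i
    have hc : Continuous fun x => homot (mollH (d k) f) (1 - d k) x i :=
      (continuous_apply i).comp (homot_smooth (hH k) _).continuous
    obtain ⟨C, hC⟩ := (isCompact_Icc (a := (0 : Fin n → ℝ)) (b := 1)).exists_bound_of_continuousOn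
      hc.continuousOn
    exact MemLp.of_bound hc.aestronglyMeasurable C
      ((ae_restrict_mem cube_isOpen.measurableSet).mono fun x hx => hC x (cube_subset_Icc hx))
  · intro k i j
    have hc : Continuous (pd (fun x => homot (mollH (d k) f) (1 - d k) x i) j) :=
      pd_continuous ((contDiff_apply ℝ ℝ i).comp (homot_smooth (hH k) _)) j
    obtain ⟨C, hC⟩ := (isCompact_Icc (a := (0 : Fin n → ℝ)) (b := 1)).exists_bound_of_continuousOn
      hc.continuousOn
    exact MemLp.of_bound hc.aestronglyMeasurable C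
      ((ae_restrict_mem cube_isOpen.measurableSet).mono fun x hx => hC x (cube_subset_Icc hx))
  · intro i
    have hcH := extH_continuous hf hface i
    obtain ⟨C, hC⟩ := extH_bounded hf i
    rw [ENNReal.tendsto_nhds_zero]
    intro ε hε
    set V := (volume.restrict (cube n)) Set.univ ^ p.toReal⁻¹
    have hV : V ≠ ⊤ := ENNReal.rpow_ne_top_of_nonneg (by positivity) (measure_ne_top _ _)
    have ht0 : Tendsto (fun e : ℝ => V * ENNReal.ofReal e) (𝓝[>] 0) (𝓝 0) := by
      have h0 : Tendsto (fun e : ℝ => ENNReal.ofReal e) (𝓝[>] 0) (𝓝 (ENNReal.ofReal 0)) :=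
        (ENNReal.continuous_ofReal.tendsto 0).mono_left nhdsWithin_le_nhds
      simpa using ENNReal.Tendsto.const_mul h0 (Or.inr hV)
    obtain ⟨e, he1, he⟩ := ((ENNReal.tendsto_nhds_zero.1 ht0 ε hε).and self_mem_nhdsWithin).exists
    have he : (0 : ℝ) < e := he
    have hsmall : ∀ᶠ k in atTop, d k * |C| ≤ e / 2 := by
      have := (hdlim.mono_right nhdsWithin_le_nhds).mul_const |C|
      rw [zero_mul] at this
      exact this.eventually (ge_mem_nhds (half_pos he))
    filter_upwards [hdlim.eventually (uniform_moll hcH (isCompact_Icc (a := (0 : Fin n → ℝ)) (b := 1))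
      (half_pos he)), hsmall] with k hk1 hk2
    refine le_trans (eLpNorm_le_of_ae_bound (C := e) ?_) he1
    refine (ae_restrict_mem cube_isOpen.measurableSet).mono fun x hx => ?_
    have hx' := cube_subset_Icc hx
    have hHx := extH_of_mem (f := f) hx' i
    have e1 : homot (mollH (d k) f) (1 - d k) x i - f x i =
        (1 - d k) * (moll (d k) (extH f i) x - extH f i x) + (-d k) * extH f i x := by
      simp only [homot, mollH, Pi.add_apply, Pi.smul_apply, smul_eq_mul, hHx]; ring
    rw [Real.norm_eq_abs, e1]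
    refine (abs_add_le _ _).trans ?_
    rw [abs_mul, abs_mul, abs_neg, abs_of_pos (hd0 k), abs_of_nonneg (ht k).1]
    have a1 : (1 - d k) * |moll (d k) (extH f i) x - extH f i x| ≤ e / 2 :=
      le_trans (mul_le_of_le_one_left (abs_nonneg _) (ht k).2.le) (hk1 x hx')
    have a2 : d k * |extH f i x| ≤ e / 2 :=
      le_trans (mul_le_mul_of_nonneg_left ((hC x).trans (le_abs_self C)) (hd0 k).le) hk2
    linarith
  · intro i j
    set U := (box n 2).indicator (extE D i j) with hU
    have hUm : MemLp U p volume :=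
      (memLp_indicator_iff_restrict (box_isCompact 2).measurableSet).2 (extE_memLp hD i j 2)
    have hUloc : LocallyIntegrable U := hUm.locallyIntegrable hp1
    have hQbox : ∀ x ∈ cube n, ∀ y : Fin n → ℝ, (∀ l, |y l| < 1) → x - y ∈ box n 2 := by
      intro x hx y hy
      refine mem_box.2 fun l => ?_
      have := mem_cube.1 hx l
      have := abs_lt.1 (hy l)
      rw [abs_le, Pi.sub_apply]
      push_cast
      constructor <;> linarith [(mem_cube.1 hx l).1, (mem_cube.1 hx l).2]
    have hUE : ∀ x ∈ cube n, U x = extE D i j x := fun x hx =>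
      Set.indicator_of_mem (by simpa using hQbox x hx 0 (by simp)) _
    have hm1 : Tendsto (fun k => eLpNorm (fun x => moll (d k) U x - U x) p volume) atTop (𝓝 0) :=
      (tendsto_moll hp1 hp hUm).comp hdlim
    have hm2 : Tendsto (fun k => ENNReal.ofReal (d k) * eLpNorm U p volume) atTop (𝓝 0) := by
      have h0 : Tendsto (fun k => ENNReal.ofReal (d k)) atTop (𝓝 (ENNReal.ofReal 0)) :=
        (ENNReal.continuous_ofReal.tendsto 0).comp (hdlim.mono_right nhdsWithin_le_nhds)
      simpa using ENNReal.Tendsto.mul_const h0 (Or.inr hUm.2.ne)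
    have hsum := hm1.add hm2
    rw [add_zero] at hsum
    refine tendsto_of_tendsto_of_tendsto_of_le_of_le tendsto_const_nhds hsum
      (fun k => zero_le) fun k => ?_
    have heq : ∀ᵐ x ∂volume.restrict (cube n),
        pd (fun y => homot (mollH (d k) f) (1 - d k) y i) j x - D x i j =
          (1 - d k) * (moll (d k) U x - U x) + (-d k) * U x := by
      refine (ae_restrict_mem cube_isOpen.measurableSet).mono fun x hx => ?_
      have hmu : moll (d k) U x = moll (d k) (extE D i j) x := by
        rw [moll_eq_kerMeasure, moll_eq_kerMeasure]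
        refine integral_congr_ae ((kerMeasure_ae_small (hd0 k)).mono fun y hy => ?_)
        exact Set.indicator_of_mem (hQbox x hx y fun l => (hy l).trans (by linarith [hd1 k])) _
      rw [hpd, hmu, hUE x hx, extE_of_mem (cube_subset_Icc hx)]
      ring
    rw [eLpNorm_congr_ae heq]
    have m1 : AEStronglyMeasurable (fun x => moll (d k) U x - U x) volume :=
      (moll_continuous (hd0 k) hUloc).aestronglyMeasurable.sub hUm.1
    refine (eLpNorm_mono_measure _ Measure.restrict_le_self).trans ?_
    refine (eLpNorm_add_le (m1.const_mul _) (hUm.1.const_mul _) hp1).trans (add_le_add ?_ ?_)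
    · refine eLpNorm_mono fun x => ?_
      rw [norm_mul, Real.norm_eq_abs, abs_of_nonneg (ht k).1]
      exact mul_le_of_le_one_left (norm_nonneg _) (ht k).2.le
    · refine le_of_eq ((eLpNorm_const_smul (-d k) U p volume).trans ?_)
      rw [Real.enorm_eq_ofReal_abs, abs_neg, abs_of_pos (hd0 k)]

end Vale.Agent.P073
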