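import Vale.Agent.P073.Defs

/-! The folding map of space onto the closed cube, and the reflections. -/

open MeasureTheory Set
open scoped ContDiff Real

namespace Vale.Agent.P073

variable {n : ℕ}

/-- The 2-periodic tent. -/
noncomputable def tent (u : ℝ) : ℝ := Real.arccos (Real.cos (π * u)) / π

/-- The slope of the tent. -/
noncomputable def sgn1 (u : ℝ) : ℝ := if 0 ≤ Real.sin (π * u) then 1 else -1

/-- The folding map. -/
noncomputable def fold (x : Fin n → ℝ) : Fin n → ℝ := fun l => tent (x l)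

lemma sgn1_sq (u : ℝ) : sgn1 u * sgn1 u = 1 := by
  unfold sgn1; split <;> norm_num

lemma sgn1_mem (u : ℝ) : sgn1 u = 1 ∨ sgn1 u = -1 := by
  unfold sgn1; split <;> simp

lemma abs_sgn1 (u : ℝ) : |sgn1 u| = 1 := by
  rcases sgn1_mem u with h | h <;> simp [h]

lemma tent_continuous : Continuous tent := by
  unfold tent; fun_prop

lemma sgn1_measurable : Measurable sgn1 := by
  unfold sgn1
  exact Measurable.ite (measurableSet_le measurable_const (by fun_prop)) measurable_const
    measurable_const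

lemma tent_mem (u : ℝ) : tent u ∈ Set.Icc (0 : ℝ) 1 := by
  constructor
  · exact div_nonneg (Real.arccos_nonneg _) Real.pi_pos.le
  · exact (div_le_one Real.pi_pos).2 (Real.arccos_le_pi _)

lemma tent_neg (u : ℝ) : tent (-u) = tent u := by simp [tent]

lemma tent_add_two_mul_int (u : ℝ) (m : ℤ) : tent (u + 2 * m) = tent u := by
  have h : π * (u + 2 * m) = π * u + (m : ℝ) * (2 * π) := by ring
  simp only [tent]; rw [h, Real.cos_add_int_mul_two_pi]

lemma sgn1_add_two_mul_int (u : ℝ) (m : ℤ) : sgn1 (u + 2 * m) = sgn1 u := by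
  have h : π * (u + 2 * m) = π * u + (m : ℝ) * (2 * π) := by ring
  simp only [sgn1]; rw [h, Real.sin_add_int_mul_two_pi]

lemma tent_of_mem {u : ℝ} (h : u ∈ Set.Icc (0 : ℝ) 1) : tent u = u := by
  have := Real.pi_pos
  rw [tent, Real.arccos_cos (by nlinarith [h.1]) (by nlinarith [h.2])]
  field_simp

lemma sgn1_of_mem {u : ℝ} (h : u ∈ Set.Icc (0 : ℝ) 1) : sgn1 u = 1 := by
  have := Real.pi_pos
  rw [sgn1, if_pos]
  exact Real.sin_nonneg_of_nonneg_of_le_pi (by nlinarith [h.1]) (by nlinarith [h.2])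

lemma tent_endpoint {u : ℝ} (h : Real.sin (π * u) = 0) : tent u = 0 ∨ tent u = 1 := by
  rcases Real.sin_eq_zero_iff_cos_eq.1 h with hc | hc
  · left; simp [tent, hc]
  · right; simp [tent, hc, Real.pi_ne_zero]

lemma fold_continuous : Continuous (fold : (Fin n → ℝ) → Fin n → ℝ) :=
  continuous_pi fun l => tent_continuous.comp (continuous_apply l)

lemma fold_mem (x : Fin n → ℝ) : fold x ∈ Set.Icc (0 : Fin n → ℝ) 1 :=
  ⟨fun l => (tent_mem (x l)).1, fun l => (tent_mem (x l)).2⟩

/-- The `k`-th open lattice cube. -/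
def cell (k : Fin n → ℤ) : Set (Fin n → ℝ) :=
  Set.pi Set.univ fun l => Set.Ioo (k l : ℝ) (k l + 1)

/-- The sign of the fold on a lattice cube. -/
def csgn (k : Fin n → ℤ) (l : Fin n) : ℝ := if Even (k l) then 1 else -1

/-- The affine map of the unit cube onto the `k`-th lattice cube which is inverse to the fold. -/
def unfold' (k : Fin n → ℤ) (y : Fin n → ℝ) : Fin n → ℝ :=
  fun l => if Even (k l) then (k l : ℝ) + y l else (k l : ℝ) + 1 - y l

lemma unfold'_apply (k : Fin n → ℤ) (y : Fin n → ℝ) (l : Fin n) :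
    unfold' k y l = (k l : ℝ) + (1 - csgn k l) / 2 + csgn k l * y l := by
  simp only [unfold', csgn]; split <;> ring

lemma csgn_sq (k : Fin n → ℤ) (l : Fin n) : csgn k l * csgn k l = 1 := by
  unfold csgn; split <;> norm_num

lemma tent_sgn_unfold (k : ℤ) {v : ℝ} (hv : v ∈ Set.Ioo (0 : ℝ) 1) :
    tent (if Even k then (k : ℝ) + v else (k : ℝ) + 1 - v) = v ∧
    sgn1 (if Even k then (k : ℝ) + v else (k : ℝ) + 1 - v) = if Even k then 1 else -1 := by
  have hv' : v ∈ Set.Icc (0 : ℝ) 1 := ⟨hv.1.le, hv.2.le⟩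
  split
  next h =>
    obtain ⟨m, rfl⟩ := h
    have e : ((m + m : ℤ) : ℝ) + v = v + 2 * m := by push_cast; ring
    rw [e, tent_add_two_mul_int, sgn1_add_two_mul_int]
    exact ⟨tent_of_mem hv', sgn1_of_mem hv'⟩
  next h =>
    obtain ⟨m, rfl⟩ := Int.not_even_iff_odd.1 h
    have e : ((2 * m + 1 : ℤ) : ℝ) + 1 - v = -v + 2 * ((m + 1 : ℤ) : ℝ) := by push_cast; ring
    rw [e, tent_add_two_mul_int, sgn1_add_two_mul_int, tent_neg]
    refine ⟨tent_of_mem hv', ?_⟩
    have : 0 < Real.sin (π * v) :=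
      Real.sin_pos_of_pos_of_lt_pi (mul_pos Real.pi_pos hv.1)
        (by nlinarith [Real.pi_pos, hv.2])
    rw [sgn1, mul_neg, Real.sin_neg, if_neg (by linarith)]

lemma mem_cube {y : Fin n → ℝ} : y ∈ cube n ↔ ∀ l, y l ∈ Set.Ioo (0 : ℝ) 1 := by
  simp [cube]

lemma mem_cell {k : Fin n → ℤ} {x : Fin n → ℝ} :
    x ∈ cell k ↔ ∀ l, x l ∈ Set.Ioo (k l : ℝ) (k l + 1) := by
  simp [cell]

lemma cube_isOpen : IsOpen (cube n) := isOpen_set_pi finite_univ fun _ _ => isOpen_Ioo

lemma cell_isOpen (k : Fin n → ℤ) : IsOpen (cell k) :=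
  isOpen_set_pi finite_univ fun _ _ => isOpen_Ioo

lemma cube_subset_Icc : cube n ⊆ Set.Icc (0 : Fin n → ℝ) 1 := fun _ hx =>
  ⟨fun l => (mem_cube.1 hx l).1.le, fun l => (mem_cube.1 hx l).2.le⟩

lemma cube_eq_cell : cube n = cell (0 : Fin n → ℤ) := by
  simp [cube, cell]

lemma fold_unfold (k : Fin n → ℤ) {y : Fin n → ℝ} (hy : y ∈ cube n) :
    fold (unfold' k y) = y :=
  funext fun l => (tent_sgn_unfold (k l) (mem_cube.1 hy l)).1

lemma sgn1_unfold (k : Fin n → ℤ) {y : Fin n → ℝ} (hy : y ∈ cube n) (l : Fin n) :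
    sgn1 (unfold' k y l) = csgn k l :=
  (tent_sgn_unfold (k l) (mem_cube.1 hy l)).2

lemma fold_of_mem {y : Fin n → ℝ} (hy : y ∈ Set.Icc (0 : Fin n → ℝ) 1) : fold y = y :=
  funext fun l => tent_of_mem ⟨hy.1 l, hy.2 l⟩

lemma unfold'_continuous (k : Fin n → ℤ) : Continuous (unfold' k) :=
  continuous_pi fun l => by
    show Continuous fun y : Fin n → ℝ =>
      if Even (k l) then (k l : ℝ) + y l else (k l : ℝ) + 1 - y l
    split <;> fun_prop

lemma unfold'_injective (k : Fin n → ℤ) : Function.Injective (unfold' k) := fun a b h =>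
  funext fun l => by
    have := congrFun h l
    simp only [unfold'] at this
    split at this <;> linarith

lemma unfold'_embedding (k : Fin n → ℤ) : MeasurableEmbedding (unfold' k) :=
  (unfold'_continuous k).measurableEmbedding (unfold'_injective k)

lemma unfold'_preimage_cell (k : Fin n → ℤ) : unfold' k ⁻¹' cell k = cube n := by
  ext y
  simp only [Set.mem_preimage, mem_cell, mem_cube, Set.mem_Ioo, unfold']
  refine forall_congr' fun l => ?_
  split <;> constructor <;> rintro ⟨h1, h2⟩ <;> constructor <;> linarith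

lemma unfold'_measurePreserving (k : Fin n → ℤ) :
    MeasurePreserving (unfold' k) volume volume := by
  refine volume_preserving_pi (f := fun l (u : ℝ) =>
    if Even (k l) then (k l : ℝ) + u else (k l : ℝ) + 1 - u) fun l => ?_
  by_cases h : Even (k l)
  · simp only [h, if_true]
    exact measurePreserving_add_left volume (k l : ℝ)
  · simp only [h, if_false]
    exact Measure.measurePreserving_sub_left volume ((k l : ℝ) + 1)

lemma unfold'_restrict (k : Fin n → ℤ) :
    MeasurePreserving (unfold' k) (volume.restrict (cube n)) (volume.restrict (cell k)) := by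
  rw [← unfold'_preimage_cell k]
  exact (unfold'_measurePreserving k).restrict_preimage (cell_isOpen k).measurableSet

lemma setIntegral_cell (k : Fin n → ℤ) (F : (Fin n → ℝ) → ℝ) :
    ∫ x in cell k, F x = ∫ y in cube n, F (unfold' k y) :=
  ((unfold'_restrict k).integral_comp (unfold'_embedding k) F).symm

lemma cell_disjoint : Pairwise (fun a b : Fin n → ℤ => Disjoint (cell a) (cell b)) := by
  intro a b hab
  rw [Set.disjoint_left]
  intro x ha hb
  obtain ⟨l, hl⟩ := Function.ne_iff.1 hab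
  have h1 := mem_cell.1 ha l
  have h2 := mem_cell.1 hb l
  rcases lt_or_gt_of_ne hl with h | h
  · have : (a l : ℝ) + 1 ≤ b l := by exact_mod_cast h
    linarith [h1.2, h2.1]
  · have : (b l : ℝ) + 1 ≤ a l := by exact_mod_cast h
    linarith [h1.1, h2.2]

/-- Almost every point lies in some open lattice cube. -/
lemma ae_mem_cell : ∀ᵐ x : Fin n → ℝ, ∃ k, x ∈ cell k := by
  have h : ∀ l : Fin n, ∀ᵐ x : Fin n → ℝ, ∀ m : ℤ, x l ≠ m := by
    intro l
    refine ae_all_iff.2 fun m => ?_
    have h0 : volume ({(m : ℝ)} : Set ℝ) = 0 := by simp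
    have := (Measure.quasiMeasurePreserving_eval (μ := fun _ : Fin n => (volume : Measure ℝ)) l).preimage_null h0
    rw [ae_iff]
    simpa [Set.preimage, volume_pi] using this
  filter_upwards [ae_all_iff.2 h] with x hx
  refine ⟨fun l => ⌊x l⌋, mem_cell.2 fun l => ⟨?_, Int.lt_floor_add_one _⟩⟩
  exact lt_of_le_of_ne (Int.floor_le _) (fun e => hx l ⌊x l⌋ e.symm)

lemma fold_quasiMeasurePreserving :
    Measure.QuasiMeasurePreserving (fold : (Fin n → ℝ) → Fin n → ℝ) volume
      (volume.restrict (cube n)) := by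
  refine ⟨fold_continuous.measurable, Measure.AbsolutelyContinuous.mk fun N hN h0 => ?_⟩
  rw [Measure.map_apply fold_continuous.measurable hN]
  have hk : ∀ k, volume (fold ⁻¹' N ∩ cell k) = 0 := by
    intro k
    have h1 := (unfold'_restrict k).measure_preimage_emb (unfold'_embedding k) (fold ⁻¹' N)
    rw [Measure.restrict_apply' (cell_isOpen k).measurableSet] at h1
    rw [← h1]
    rw [← h0]
    refine measure_congr ?_
    filter_upwards [ae_restrict_mem cube_isOpen.measurableSet] with y hy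
    show (fold (unfold' k y) ∈ N) = (y ∈ N)
    rw [fold_unfold k hy]
  have hsub : fold ⁻¹' N ⊆ (⋃ k, fold ⁻¹' N ∩ cell k) ∪ {x | ¬ ∃ k, x ∈ cell k} := by
    intro x hx
    by_cases h : ∃ k, x ∈ cell k
    · obtain ⟨k, hk⟩ := h
      exact Or.inl (Set.mem_iUnion.2 ⟨k, hx, hk⟩)
    · exact Or.inr h
  exact measure_mono_null hsub (measure_union_null (measure_iUnion_null hk)
    (ae_iff.1 ae_mem_cell))

end Vale.Agent.P073
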