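import Vale.Agent.P073.Cutoff

/-! The reflected extension has the reflected weak gradient on all of space. -/

open MeasureTheory Set Filter
open scoped ContDiff Topology ENNReal

namespace Vale.Agent.P073

variable {n : ℕ}

/-- The linear part of an unfolding map. -/
noncomputable def unfoldL (k : Fin n → ℤ) : (Fin n → ℝ) →L[ℝ] Fin n → ℝ :=
  ContinuousLinearMap.pi fun l => csgn k l • ContinuousLinearMap.proj l

lemma unfold'_hasFDerivAt (k : Fin n → ℤ) (y : Fin n → ℝ) :
    HasFDerivAt (unfold' k) (unfoldL k) y := by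
  have h : unfold' k = fun z => (fun l => (k l : ℝ) + (1 - csgn k l) / 2) + unfoldL k z := by
    funext z l
    simp [unfoldL, unfold'_apply]
  rw [h]
  exact (unfoldL k).hasFDerivAt.const_add _

lemma unfold'_contDiff (k : Fin n → ℤ) : ContDiff ℝ ∞ (unfold' k) := by
  refine contDiff_pi.2 fun l => ?_
  simp only [unfold'_apply]
  exact contDiff_const.add (contDiff_const.mul (contDiff_apply ℝ ℝ l))

lemma pd_comp_unfold (k : Fin n → ℤ) {φ : (Fin n → ℝ) → ℝ} (hφ : ContDiff ℝ ∞ φ) (j : Fin n)
    (y : Fin n → ℝ) :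
    pd (fun z => φ (unfold' k z)) j y = csgn k j * pd φ j (unfold' k y) := by
  have h := ((hφ.differentiable (by norm_num)) (unfold' k y)).hasFDerivAt.comp y
    (unfold'_hasFDerivAt k y)
  have e : unfoldL k (Pi.single j 1) = csgn k j • Pi.single j (1 : ℝ) := by
    funext l
    rcases eq_or_ne l j with hl | hl
    · subst hl; simp [unfoldL]
    · simp [unfoldL, hl]
  rw [pd, show (fun z => φ (unfold' k z)) = φ ∘ unfold' k from rfl, h.fderiv,
    ContinuousLinearMap.comp_apply, e, map_smul, smul_eq_mul, pd]

lemma pd_continuous {φ : (Fin n → ℝ) → ℝ} (hφ : ContDiff ℝ ∞ φ) (j : Fin n) :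
    Continuous (pd φ j) :=
  (hφ.continuous_fderiv (by norm_num)).clm_apply continuous_const

lemma pd_hasCompactSupport {φ : (Fin n → ℝ) → ℝ} (hφ : HasCompactSupport φ) (j : Fin n) :
    HasCompactSupport (pd φ j) :=
  hφ.fderiv_apply (𝕜 := ℝ) _

lemma pd_mul {a b : (Fin n → ℝ) → ℝ} (ha : ContDiff ℝ ∞ a) (hb : ContDiff ℝ ∞ b) (j : Fin n)
    (x : Fin n → ℝ) : pd (fun z => a z * b z) j x = pd a j x * b x + a x * pd b j x := by
  have h1 := ((ha.differentiable (by norm_num)) x).hasFDerivAt
  have h2 := ((hb.differentiable (by norm_num)) x).hasFDerivAt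
  simp only [pd]
  rw [(h1.fun_mul h2).fderiv]
  simp
  ring

lemma integral_pd_eq_zero {φ : (Fin n → ℝ) → ℝ} (hφ : ContDiff ℝ ∞ φ)
    (hs : HasCompactSupport φ) (j : Fin n) : ∫ x, pd φ j x = 0 := by
  have h := integral_mul_fderiv_eq_neg_fderiv_mul_of_integrable (μ := (volume : Measure (Fin n → ℝ)))
    (f := fun _ => (1 : ℝ)) (g := φ) (v := Pi.single j 1) (by simp)
    (by simp only [one_mul]; exact (pd_continuous hφ j).integrable_of_hasCompactSupport (pd_hasCompactSupport hs j))
    (by simpa using hφ.continuous.integrable_of_hasCompactSupport hs)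
    (fun x _ => differentiableAt_const _) (fun x _ => (hφ.differentiable (by norm_num)) x)
  simpa [pd] using h

lemma coord_weak (i j : Fin n) {φ : (Fin n → ℝ) → ℝ} (hφ : ContDiff ℝ ∞ φ)
    (hs : HasCompactSupport φ) (hQ : tsupport φ ⊆ cube n) :
    ∫ x in cube n, x i * pd φ j x = - ∫ x in cube n, idm i j * φ x := by
  rw [setIntegral_eq_integral_of_forall_compl_eq_zero, setIntegral_eq_integral_of_forall_compl_eq_zero]
  · have hf : ∀ x : Fin n → ℝ, HasFDerivAt (fun z : Fin n → ℝ => z i)
        (ContinuousLinearMap.proj i) x :=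
      fun x => (ContinuousLinearMap.proj (R := ℝ) (φ := fun _ : Fin n => ℝ) i).hasFDerivAt
    have hd : ∀ x : Fin n → ℝ, fderiv ℝ (fun z : Fin n → ℝ => z i) x (Pi.single j 1) = idm i j := by
      intro x
      rw [(hf x).fderiv]
      simp [idm, Pi.single_apply]
    have h := integral_mul_fderiv_eq_neg_fderiv_mul_of_integrable
      (μ := (volume : Measure (Fin n → ℝ))) (f := fun z : Fin n → ℝ => z i) (g := φ)
      (v := Pi.single j 1) ?_ ?_ ?_ (fun x _ => (hf x).differentiableAt)
      (fun x _ => (hφ.differentiable (by norm_num)) x)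
    · simp only [hd] at h
      exact h
    · simp only [hd]
      exact (hφ.continuous.integrable_of_hasCompactSupport hs).const_mul _
    · exact ((continuous_apply i).mul (pd_continuous hφ j)).integrable_of_hasCompactSupport
        (pd_hasCompactSupport hs j).mul_left
    · exact ((continuous_apply i).mul hφ.continuous).integrable_of_hasCompactSupport hs.mul_left
  · intro x hx
    simp [image_eq_zero_of_notMem_tsupport fun h => hx (hQ h)]
  · intro x hx
    have : pd φ j x = 0 := by
      rw [pd, image_eq_zero_of_notMem_tsupport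
        (f := fderiv ℝ φ) fun h => hx (hQ (tsupport_fderiv_subset ℝ h))]
      rfl
    simp [this]

/-- Smooth function equal to one on the shrunken cube, supported inside the cube. -/
noncomputable def inner' (δ : ℝ) (y : Fin n → ℝ) : ℝ :=
  ∏ l, (Real.smoothTransition (y l / δ - 1) * Real.smoothTransition ((1 - y l) / δ - 1))

lemma inner'_contDiff (δ : ℝ) : ContDiff ℝ ∞ (inner' (n := n) δ) :=
  contDiff_prod fun l _ =>
    (Real.smoothTransition.contDiff.comp
      (((contDiff_apply ℝ ℝ l).div_const δ).sub contDiff_const)).mul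
    (Real.smoothTransition.contDiff.comp
      (((contDiff_const.sub (contDiff_apply ℝ ℝ l)).div_const δ).sub contDiff_const))

lemma inner'_tsupport {δ : ℝ} (hδ : 0 < δ) :
    HasCompactSupport (inner' (n := n) δ) ∧ tsupport (inner' (n := n) δ) ⊆ cube n := by
  set S : Set (Fin n → ℝ) := Set.pi Set.univ fun _ => Set.Icc δ (1 - δ)
  have hS : IsCompact S := isCompact_univ_pi fun _ => isCompact_Icc
  have hsub : Function.support (inner' (n := n) δ) ⊆ S := by
    intro y hy l _
    rw [Function.mem_support, inner', Finset.prod_ne_zero_iff] at hy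
    have h := mul_ne_zero_iff.1 (hy l (Finset.mem_univ l))
    constructor
    · by_contra hlt
      refine h.1 (Real.smoothTransition.zero_of_nonpos ?_)
      rw [sub_nonpos, div_le_one hδ]; exact (not_le.1 hlt).le
    · by_contra hlt
      refine h.2 (Real.smoothTransition.zero_of_nonpos ?_)
      rw [sub_nonpos, div_le_one hδ]; linarith [not_le.1 hlt]
  have ht : tsupport (inner' (n := n) δ) ⊆ S := closure_minimal hsub hS.isClosed
  refine ⟨HasCompactSupport.of_support_subset_isCompact hS hsub, fun y hy => mem_cube.2 fun l => ?_⟩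
  have := ht hy l (Set.mem_univ l)
  exact ⟨by linarith [this.1], by linarith [this.2]⟩

lemma cut_mul_inner {δ : ℝ} (hδ : 0 < δ) (k : Fin n → ℤ) {y : Fin n → ℝ} (hy : y ∈ cube n) :
    cut δ (unfold' k y) * inner' (δ / 8) y = cut δ (unfold' k y) := by
  by_cases h : ∀ l, 2 * (δ / 8) ≤ y l ∧ y l ≤ 1 - 2 * (δ / 8)
  · have : inner' (δ / 8) y = 1 := by
      refine Finset.prod_eq_one fun l _ => ?_
      rw [Real.smoothTransition.one_of_one_le, Real.smoothTransition.one_of_one_le, one_mul]
      · rw [le_sub_iff_add_le, le_div_iff₀ (by positivity)]; linarith [(h l).2]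
      · rw [le_sub_iff_add_le, le_div_iff₀ (by positivity)]; linarith [(h l).1]
    rw [this, mul_one]
  · obtain ⟨l, hl⟩ := not_forall.1 h
    have hy' := mem_cube.1 hy l
    have hsin : |Real.sin (Real.pi * unfold' k y l)| = |Real.sin (Real.pi * y l)| := by
      simp only [unfold']
      split
      · rw [mul_add, mul_comm Real.pi (k l : ℝ), add_comm, Real.sin_add_int_mul_pi, abs_mul,
          abs_zpow]
        simp
      · rw [show Real.pi * ((k l : ℝ) + 1 - y l) = -(Real.pi * y l) + ((k l + 1 : ℤ) : ℝ) * Real.pi by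
          push_cast; ring, Real.sin_add_int_mul_pi, abs_mul, abs_zpow, Real.sin_neg, abs_neg]
        simp
    have hsmall : |Real.sin (Real.pi * y l)| ≤ δ := by
      have hpi := Real.pi_le_four
      rcases not_and_or.1 hl with h1 | h1
      · calc |Real.sin (Real.pi * y l)| ≤ |Real.pi * y l| := Real.abs_sin_le_abs
          _ ≤ δ := by
            rw [abs_mul, abs_of_pos Real.pi_pos, abs_of_pos hy'.1]
            nlinarith [not_le.1 h1, hy'.1, Real.pi_pos]
      · calc |Real.sin (Real.pi * y l)| = |Real.sin (Real.pi * (1 - y l))| := by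
              rw [mul_sub, mul_one, Real.sin_pi_sub]
          _ ≤ |Real.pi * (1 - y l)| := Real.abs_sin_le_abs
          _ ≤ δ := by
            rw [abs_mul, abs_of_pos Real.pi_pos, abs_of_pos (by linarith [hy'.2])]
            nlinarith [not_le.1 h1, hy'.2, Real.pi_pos]
    have : cut δ (unfold' k y) = 0 :=
      Finset.prod_eq_zero (Finset.mem_univ l) (eta_eq_zero hδ (by rw [hsin]; exact hsmall))
    rw [this, zero_mul]

variable {f : (Fin n → ℝ) → Fin n → ℝ} {D : (Fin n → ℝ) → Fin n → Fin n → ℝ}

lemma cut_weak {p : ℝ≥0∞} (hp1 : 1 ≤ p) (hf : ContinuousOn f (Set.Icc 0 1)) (hface : Faces f)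
    (hD : ∀ i j, MemLp (fun x => D x i j) p (volume.restrict (cube n)))
    (hw : ∀ i, IsWeakGrad (cube n) (fun x => f x i) (fun x => D x i))
    {ψ : (Fin n → ℝ) → ℝ} (hψ : ContDiff ℝ ∞ ψ) (hs : HasCompactSupport ψ) (i j : Fin n)
    {δ : ℝ} (hδ : 0 < δ) :
    ∫ x, (extH f i x * pd (fun z => ψ z * cut δ z) j x + extE D i j x * (ψ x * cut δ x)) = 0 := by
  set φ := fun z => ψ z * cut δ z with hφdef
  have hφ : ContDiff ℝ ∞ φ := hψ.mul (cut_contDiff δ)
  have hφs : HasCompactSupport φ := hs.mul_right
  have hH := extH_continuous hf hface i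
  have hI : Integrable fun x => extH f i x * pd φ j x + extE D i j x * φ x :=
    ((hH.mul (pd_continuous hφ j)).integrable_of_hasCompactSupport
      (pd_hasCompactSupport hφs j).mul_left).add
    ((extE_locallyIntegrable hp1 hD i j).integrable_smul_right_of_hasCompactSupport
      hφ.continuous hφs)
  have hcov : (⋃ k : Fin n → ℤ, cell k) =ᵐ[volume] (Set.univ : Set (Fin n → ℝ)) :=
    ae_eq_univ.2 (by
      have := ae_iff.1 (ae_mem_cell (n := n))
      convert this using 2
      ext x; simp)
  rw [← setIntegral_univ, ← setIntegral_congr_set hcov,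
    integral_iUnion (fun k => (cell_isOpen k).measurableSet) cell_disjoint hI.integrableOn]
  refine (tsum_congr fun k => ?_).trans tsum_zero
  rw [setIntegral_cell]
  set χ := fun y => φ (unfold' k y) * inner' (δ / 8) y with hχdef
  obtain ⟨his, hiQ⟩ := inner'_tsupport (n := n) (δ := δ / 8) (by positivity)
  have hχ : ContDiff ℝ ∞ χ := (hφ.comp (unfold'_contDiff k)).mul (inner'_contDiff _)
  have hχs : HasCompactSupport χ := his.mul_left
  have hχQ : tsupport χ ⊆ cube n := (tsupport_mul_subset_right).trans hiQ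
  have hval : ∀ y ∈ cube n, χ y = φ (unfold' k y) := fun y hy => by
    simp only [hχdef, hφdef, mul_assoc, cut_mul_inner hδ k hy]
  have hder : ∀ y ∈ cube n, pd φ j (unfold' k y) = csgn k j * pd χ j y := by
    intro y hy
    have he : χ =ᶠ[𝓝 y] fun z => φ (unfold' k z) :=
      Filter.eventuallyEq_of_mem (cube_isOpen.mem_nhds hy) hval
    have h1 : pd χ j y = pd (fun z => φ (unfold' k z)) j y := by simp only [pd]; rw [he.fderiv_eq]
    rw [h1, pd_comp_unfold k hφ, ← mul_assoc, csgn_sq, one_mul]
  have e : ∀ y ∈ cube n, extH f i (unfold' k y) * pd φ j (unfold' k y) +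
      extE D i j (unfold' k y) * φ (unfold' k y) =
      csgn k i * csgn k j * ((f y i * pd χ j y - y i * pd χ j y) +
        (D y i j * χ y - idm i j * χ y)) := by
    intro y hy
    rw [extH_unfold k hy, extE_unfold k hy, hder y hy, ← hval y hy]
    ring
  rw [setIntegral_congr_fun cube_isOpen.measurableSet e, integral_const_mul]
  have hfin : IsFiniteMeasure (volume.restrict (cube n)) :=
    ⟨by rw [Measure.restrict_apply_univ]
        exact (measure_mono cube_subset_Icc).trans_lt isCompact_Icc.measure_lt_top⟩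
  have h1 : IntegrableOn (fun y => f y i * pd χ j y) (cube n) :=
    ((((continuous_apply i).comp_continuousOn hf).mul (pd_continuous hχ j).continuousOn).integrableOn_compact
      isCompact_Icc).mono_set cube_subset_Icc
  have h2 : IntegrableOn (fun y => y i * pd χ j y) (cube n) :=
    (((continuous_apply i).mul (pd_continuous hχ j)).continuousOn.integrableOn_compact
      isCompact_Icc).mono_set cube_subset_Icc
  have h4 : IntegrableOn (fun y => idm i j * χ y) (cube n) :=
    ((hχ.continuous.integrable_of_hasCompactSupport hχs).const_mul _).integrableOn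
  have h3 : IntegrableOn (fun y => D y i j * χ y) (cube n) := by
    obtain ⟨C, hC⟩ := hχs.exists_bound_of_continuous hχ.continuous
    exact ((hD i j).integrable hp1).mul_bdd hχ.continuous.aestronglyMeasurable
      (Eventually.of_forall hC)
  rw [integral_add (h1.sub' h2) (h3.sub' h4), integral_sub h1 h2, integral_sub h3 h4,
    hw i χ hχ hχs hχQ j, coord_weak i j hχ hχs hχQ]
  ring

lemma flux_tendsto {Φ : (Fin n → ℝ) → ℝ} (hc : Continuous Φ) (hs : HasCompactSupport Φ) (j : Fin n) :
    Tendsto (fun δ => ∫ x, Φ x * pd (cut δ) j x) (𝓝[>] (0 : ℝ)) (𝓝 0) := by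
  obtain ⟨N₀, hN₀⟩ := exists_box_superset hs.isCompact
  set N := N₀ + 1
  obtain ⟨C, hC0, hC⟩ := pd_cut_L1_bound j N
  rw [Metric.tendsto_nhds]
  intro ε hε
  set e := ε / (2 * (C + 1))
  have he : 0 < e := by positivity
  obtain ⟨d, hu, hd⟩ := ((uniform_moll hc (box_isCompact (n := n) N) he).and
    (Ioo_mem_nhdsGT one_pos)).exists
  set Ψ := moll d Φ
  have hΨ : ContDiff ℝ ∞ Ψ := moll_contDiff hd.1 hc.locallyIntegrable
  have hout : ∀ x, x ∉ box n N → Ψ x = 0 ∧ Φ x = 0 := by
    intro x hx
    refine ⟨?_, image_eq_zero_of_notMem_tsupport fun h => hx (mem_box.2 fun l => ?_)⟩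
    · have hz : ∀ y, ker d y * Φ (x - y) = 0 := by
        intro y
        by_cases hy : ∀ l, |y l| < d
        · have : Φ (x - y) = 0 := image_eq_zero_of_notMem_tsupport fun h => hx (mem_box.2 fun l => by
            have h1 := abs_le.1 (mem_box.1 (hN₀ h) l)
            have h2 := abs_lt.1 (hy l)
            rw [abs_le, Nat.cast_add, Nat.cast_one]
            simp only [Pi.sub_apply] at h1
            constructor <;> linarith [hd.2])
          simp [this]
        · push Not at hy; obtain ⟨l, hl⟩ := hy
          simp [ker_eq_zero hd.1 hl]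
      simp [Ψ, moll, hz]
    · have := mem_box.1 (hN₀ h) l
      rw [Nat.cast_add, Nat.cast_one]; linarith
  have hΨs : HasCompactSupport Ψ :=
    HasCompactSupport.intro (box_isCompact N) fun x hx => (hout x hx).1
  have hlim : Tendsto (fun δ => ∫ x, pd Ψ j x * cut δ x) (𝓝[>] (0 : ℝ)) (𝓝 0) := by
    have := tendsto_integral_filter_of_dominated_convergence (μ := (volume : Measure (Fin n → ℝ)))
      (l := 𝓝[>] (0 : ℝ)) (F := fun δ x => pd Ψ j x * cut δ x) (f := pd Ψ j)
      (fun x => |pd Ψ j x|)
      (Eventually.of_forall fun δ =>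
        ((pd_continuous hΨ j).mul (cut_contDiff δ).continuous).aestronglyMeasurable)
      (Eventually.of_forall fun δ => Eventually.of_forall fun x => by
        rw [Real.norm_eq_abs, abs_mul, abs_of_nonneg (cut_mem δ x).1]
        exact mul_le_of_le_one_right (abs_nonneg _) (cut_mem δ x).2)
      ((pd_continuous hΨ j).integrable_of_hasCompactSupport (pd_hasCompactSupport hΨs j)).norm
      (ae_mem_cell.mono fun x hx => by simpa using (cut_tendsto hx).const_mul (pd Ψ j x))
    rwa [integral_pd_eq_zero hΨ hΨs j] at this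
  filter_upwards [(Metric.tendsto_nhds.1 hlim) (ε / 2) (half_pos hε), self_mem_nhdsWithin]
    with δ hδ1 hδ
  rw [dist_zero_right, Real.norm_eq_abs] at hδ1 ⊢
  have hcut : Continuous (pd (cut (n := n) δ) j) := pd_continuous (cut_contDiff δ) j
  have i1 : Integrable fun x => (Φ x - Ψ x) * pd (cut δ) j x :=
    ((hc.sub hΨ.continuous).mul hcut).integrable_of_hasCompactSupport
      (HasCompactSupport.mul_right (hs.sub hΨs))
  have i2 : Integrable fun x => Ψ x * pd (cut δ) j x :=
    (hΨ.continuous.mul hcut).integrable_of_hasCompactSupport hΨs.mul_right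
  have e2 : ∫ x, Ψ x * pd (cut δ) j x = - ∫ x, pd Ψ j x * cut δ x :=
    integral_mul_fderiv_eq_neg_fderiv_mul_of_integrable
      (((pd_continuous hΨ j).mul (cut_contDiff δ).continuous).integrable_of_hasCompactSupport
        (pd_hasCompactSupport hΨs j).mul_right)
      i2 ((hΨ.continuous.mul (cut_contDiff δ).continuous).integrable_of_hasCompactSupport hΨs.mul_right)
      (fun x _ => (hΨ.differentiable (by norm_num)) x)
      (fun x _ => ((cut_contDiff δ).differentiable (by norm_num)) x)
  have e1 : ∫ x, Φ x * pd (cut δ) j x =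
      (∫ x, (Φ x - Ψ x) * pd (cut δ) j x) + ∫ x, Ψ x * pd (cut δ) j x := by
    rw [← integral_add i1 i2]; exact integral_congr_ae (Eventually.of_forall fun x => by ring)
  have e3 : |∫ x, (Φ x - Ψ x) * pd (cut δ) j x| ≤ e * C := by
    rw [← setIntegral_eq_integral_of_forall_compl_eq_zero (s := box n N)
      fun x hx => by simp [hout x hx]]
    refine (abs_integral_le_integral_abs).trans ?_
    calc ∫ x in box n N, |(Φ x - Ψ x) * pd (cut δ) j x|
        ≤ ∫ x in box n N, e * |pd (cut δ) j x| := by
          refine setIntegral_mono_on i1.abs.integrableOn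
            ((hcut.abs.continuousOn.integrableOn_compact (box_isCompact N)).const_mul e)
            (box_isCompact N).measurableSet fun x hx => ?_
          rw [abs_mul, abs_sub_comm]
          exact mul_le_mul_of_nonneg_right (hu x hx) (abs_nonneg _)
      _ = e * ∫ x in box n N, |pd (cut δ) j x| := integral_const_mul _ _
      _ ≤ e * C := mul_le_mul_of_nonneg_left (hC δ hδ) he.le
  have e4 : e * C ≤ ε / 2 := by
    rw [show e * C = ε / 2 * (C / (C + 1)) by simp only [e]; field_simp]
    exact mul_le_of_le_one_right (by positivity) ((div_le_one (by positivity)).2 (by linarith))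
  rw [e1, e2]
  calc _ ≤ |∫ x, (Φ x - Ψ x) * pd (cut δ) j x| + |(-∫ x, pd Ψ j x * cut δ x)| := abs_add_le _ _
    _ < e * C + ε / 2 := by rw [abs_neg]; exact add_lt_add_of_le_of_lt e3 hδ1
    _ ≤ ε := by linarith

/-- The extension has the reflected weak gradient on all of space. -/
theorem extH_weak {p : ℝ≥0∞} (hp1 : 1 ≤ p) (hf : ContinuousOn f (Set.Icc 0 1)) (hface : Faces f)
    (hD : ∀ i j, MemLp (fun x => D x i j) p (volume.restrict (cube n)))
    (hw : ∀ i, IsWeakGrad (cube n) (fun x => f x i) (fun x => D x i))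
    {ψ : (Fin n → ℝ) → ℝ} (hψ : ContDiff ℝ ∞ ψ) (hs : HasCompactSupport ψ) (i j : Fin n) :
    ∫ x, (extH f i x * pd ψ j x + extE D i j x * ψ x) = 0 := by
  have hH := extH_continuous hf hface i
  set G := fun x => extH f i x * pd ψ j x + extE D i j x * ψ x
  have hG : Integrable G :=
    ((hH.mul (pd_continuous hψ j)).integrable_of_hasCompactSupport
      (pd_hasCompactSupport hs j).mul_left).add
    ((extE_locallyIntegrable hp1 hD i j).integrable_smul_right_of_hasCompactSupport
      hψ.continuous hs)
  set Φ := fun x => extH f i x * ψ x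
  have hΦ : Continuous Φ := hH.mul hψ.continuous
  have hΦs : HasCompactSupport Φ := hs.mul_left
  have hkey : ∀ δ : ℝ, 0 < δ → (∫ x, G x * cut δ x) + ∫ x, Φ x * pd (cut δ) j x = 0 := by
    intro δ hδ
    have ia : Integrable fun x => G x * cut δ x :=
      hG.mul_bdd (c := 1) (cut_contDiff δ).continuous.aestronglyMeasurable
        (Eventually.of_forall fun x => by
          rw [Real.norm_eq_abs, abs_of_nonneg (cut_mem δ x).1]; exact (cut_mem δ x).2)
    have ib : Integrable fun x => Φ x * pd (cut δ) j x :=
      (hΦ.mul (pd_continuous (cut_contDiff δ) j)).integrable_of_hasCompactSupport hΦs.mul_right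
    rw [← integral_add ia ib]
    rw [← cut_weak hp1 hf hface hD hw hψ hs i j hδ]
    refine integral_congr_ae (Eventually.of_forall fun x => ?_)
    simp only [G, Φ, pd_mul hψ (cut_contDiff δ)]
    ring
  have h1 : Tendsto (fun δ => ∫ x, G x * cut δ x) (𝓝[>] (0 : ℝ)) (𝓝 (∫ x, G x)) := by
    refine tendsto_integral_filter_of_dominated_convergence (fun x => |G x|)
      (Eventually.of_forall fun δ => hG.1.mul (cut_contDiff δ).continuous.aestronglyMeasurable)
      (Eventually.of_forall fun δ => Eventually.of_forall fun x => by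
        rw [Real.norm_eq_abs, abs_mul, abs_of_nonneg (cut_mem δ x).1]
        exact mul_le_of_le_one_right (abs_nonneg _) (cut_mem δ x).2)
      hG.norm (ae_mem_cell.mono fun x hx => by simpa using (cut_tendsto hx).const_mul (G x))
  have h2 := h1.add (flux_tendsto hΦ hΦs j)
  rw [add_zero] at h2
  exact tendsto_nhds_unique h2 (tendsto_const_nhds.congr'
    ((eventually_mem_nhdsWithin (a := (0 : ℝ)) (s := Set.Ioi 0)).mono fun δ hδ => (hkey δ hδ).symm))

/-- Partial derivatives of the mollified extension. -/
theorem pd_moll_extH {p : ℝ≥0∞} (hp1 : 1 ≤ p) (hf : ContinuousOn f (Set.Icc 0 1)) (hface : Faces f)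
    (hD : ∀ i j, MemLp (fun x => D x i j) p (volume.restrict (cube n)))
    (hw : ∀ i, IsWeakGrad (cube n) (fun x => f x i) (fun x => D x i))
    {δ : ℝ} (hδ : 0 < δ) (i j : Fin n) (x : Fin n → ℝ) :
    pd (moll δ (extH f i)) j x = moll δ (extE D i j) x := by
  have hH := extH_continuous hf hface i
  set ψ := fun z => ker δ (x - z) with hψdef
  have hψ : ContDiff ℝ ∞ ψ := (ker_contDiff δ).comp (contDiff_const.sub contDiff_id)
  have hψs : HasCompactSupport ψ :=
    (ker_hasCompactSupport hδ).comp_homeomorph (Homeomorph.subLeft x)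
  have hpd : ∀ z, pd ψ j z = - pd (ker δ) j (x - z) := by
    intro z
    have h := (((ker_contDiff (n := n) δ).differentiable (by norm_num)) (x - z)).hasFDerivAt.comp z
      ((hasFDerivAt_id z).const_sub x)
    rw [pd, show ψ = ker δ ∘ (fun y => x - y) from rfl, h.fderiv]
    simp [pd]
  have h0 := extH_weak hp1 hf hface hD hw hψ hψs i j
  have ia : Integrable fun z => extH f i z * pd ψ j z :=
    (hH.mul (pd_continuous hψ j)).integrable_of_hasCompactSupport (pd_hasCompactSupport hψs j).mul_left
  have ib : Integrable fun z => extE D i j z * ψ z :=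
    (extE_locallyIntegrable hp1 hD i j).integrable_smul_right_of_hasCompactSupport
      hψ.continuous hψs
  rw [integral_add ia ib] at h0
  simp only [hpd, mul_neg, integral_neg] at h0
  rw [pd_moll hδ hH.locallyIntegrable, moll,
    ← integral_sub_left_eq_self (fun y => ker δ y * extE D i j (x - y)) volume x]
  have hc : ∫ z, extE D i j z * ψ z = ∫ z, ker δ (x - z) * extE D i j (x - (x - z)) :=
    integral_congr_ae (Eventually.of_forall fun z => by simp [hψdef, mul_comm])
  rw [← hc]
  have he : ∫ z, extH f i z * pd (ker δ) j (x - z) = ∫ z, extE D i j z * ψ z := by linarith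
  exact he

end Vale.Agent.P073
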